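import Vale.Agent.P267.H62.NFDiv
import Vale.Agent.P267.H451.DivLB

/-! P267, package D-NFDIV (helper62): on a compact surface every norm function is, up to a positive
smooth factor, the squared norm of a holomorphic section of a holomorphic line bundle. -/

open Set Filter Topology Metric
open scoped Manifold ContDiff
open Vale.Agent.P272.K
open Vale.Agent.P267.FL
open Vale.Agent.P267.H757 (IsNormFn LocRep)
open Vale.Agent.P267.H451 (DivLB)

namespace Vale.Agent.P267.H62

variable {X : Type*} [TopologicalSpace X] [ChartedSpace C2 X]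

/-- The metric of the projector line bundle of a divisor. -/
theorem divLB_rep {D : EffDiv X} {ι : Type} [Fintype ι] [DecidableEq ι] (B : DivLB D ι) :
    Rep D (fun x y => ‖B.v x y‖ ^ 2) (fun x => ‖B.s x‖ ^ 2) where
  metric :=
    { smooth := fun x y hy e he => by
        have h1 := B.v_reg x y hy e he.1 he.2
        have h2 : ContDiffAt ℝ ∞ (fun z => ∑ i, ‖B.v x (e.symm z) i‖ ^ 2) (e y) := by
          refine ContDiffAt.sum fun i _ => ?_
          have h3 : ContDiffAt ℝ ∞ (fun z => B.v x (e.symm z) i) (e y) :=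
            ((PiLp.proj (𝕜 := ℝ) 2 (fun _ : ι => ℂ) i).contDiff.contDiffAt).comp _ h1
          exact h3.norm_sq ℝ
        refine h2.congr_of_eventuallyEq (Eventually.of_forall fun z => ?_)
        exact EuclideanSpace.norm_sq_eq _
      pos := fun x y hy => by
        have := norm_pos_iff.2 (B.v_ne x y hy)
        positivity
      change := fun x x' y hy => by
        rw [← mul_pow, ← mul_pow, ← norm_smul, ← norm_smul, ← B.s_eq x y hy.1,
          ← B.s_eq x' y hy.2] }
  eq := fun x y hy => by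
    rw [← mul_pow, ← norm_smul, ← B.s_eq x y hy]

/-- **Every norm function on a compact surface is, up to a positive smooth factor, the squared norm
of a holomorphic section of a holomorphic line bundle.** -/
theorem nflb [IsManifold 𝓘(ℂ, C2) ω X] [CompactSpace X] [T2Space X] (N : X → ℝ)
    (hN : IsNormFn C2 N) :
    ∃ (r : ℕ) (L : LB X (Fin r)) (a : X → Fin 2 → ℂ)
      (s : X → EuclideanSpace ℂ (Fin r)) (ψ : X → ℝ), L.IsHol a ∧ Reg0 ∞ 0 s ∧ L.Sec s ∧
      (∀ x i, L.db0 a 0 s x i = 0) ∧ ContMDiff 𝓘(ℝ, C2) 𝓘(ℝ) ∞ ψ ∧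
      ∀ x, ‖s x‖ ^ 2 = N x * Real.exp (-ψ x) := by
  obtain ⟨D, h, hr⟩ := exists_rep hN
  obtain ⟨r, ⟨B⟩⟩ := H451.exists_divLB D
  obtain ⟨ψ, hψ, h1, -⟩ := hr.ratio (divLB_rep B)
  refine ⟨r, B.L, B.a, B.s, ψ, B.hol, B.s_reg, B.s_sec, B.s_hol, hψ, fun x => ?_⟩
  rw [h1 x, mul_assoc, ← Real.exp_add]
  simp

end Vale.Agent.P267.H62
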