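import Vale.Agent.P267.H338.Ident
import Vale.Agent.P267.H331.Inj

/-!
# P267: an embedded projective line contained in another one is equal to it
-/

open scoped Manifold ContDiff Topology
open Vale.Agent.P272.K Set Metric Filter
open Vale.Agent.P267.H338

noncomputable section

namespace Vale.Agent.P267.H62

variable {M : Type*} [TopologicalSpace M] [ChartedSpace (Cm 2) M]

/-- A holomorphic curve which does not lie in the hypersurface `C` meets it in isolated
parameters. -/
theorem isolated_of_interior {C : Set M} (hC : IsHypersurface C) {g : ℂ → M}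
    (hg : MDifferentiable 𝓘(ℂ) 𝓘(ℂ, Cm 2) g) (h : interior (g ⁻¹' C) = ∅) :
    ∀ z ∈ g ⁻¹' C, ∀ᶠ y in 𝓝[≠] z, y ∉ g ⁻¹' C := by
  intro z hz
  obtain ⟨U, l, hU, hpU, hl, hlC⟩ := hC.eq (g z) hz
  have hUo : IsOpen (g ⁻¹' U) := hU.preimage hg.continuous
  have han : AnalyticAt ℂ (fun z => l (g z)) z :=
    (differentiableOn_comp hU hl hg).analyticAt (hUo.mem_nhds hpU)
  rcases han.eventually_eq_zero_or_eventually_ne_zero with h0 | h0
  · exfalso
    have : g ⁻¹' C ∈ 𝓝 z := by
      filter_upwards [h0, hUo.mem_nhds hpU] with y hy hyU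
      exact (hlC (g y) hyU).2 hy
    have h1 : z ∈ interior (g ⁻¹' C) := mem_interior_iff_mem_nhds.2 this
    rw [h] at h1
    exact h1
  · filter_upwards [h0, nhdsWithin_le_nhds (hUo.mem_nhds hpU)] with y hy hyU hyC
    exact hy ((hlC (g y) hyU).1 hyC)

/-- **(EMB)** -/
theorem image_eq_of_subset [T2Space M] [IsManifold 𝓘(ℂ, Cm 2) ω M] (φ ψ : EmbP1 M)
    (h : φ.image ⊆ ψ.image) : φ.image = ψ.image := by
  refine Subset.antisymm h ?_
  rcases φ.isHypersurface.subset_or ψ.holo₀ with h0 | h0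
  · exact ψ.subset_of_f₀ φ.isClosed_image h0
  · exfalso
    have hc : (ψ.f₀ ⁻¹' φ.image).Countable :=
      H331.countable_of_isolated (isolated_of_interior φ.isHypersurface ψ.holo₀ h0)
    have hi : φ.f₀ '' univ ⊆ ψ.f₀ '' (ψ.f₀ ⁻¹' φ.image) ∪ {ψ.f₁ 0} := by
      rintro _ ⟨z, -, rfl⟩
      rcases h (φ.mem_image_f₀ z) with ⟨w, hw⟩ | hw
      · refine Or.inl ⟨w, ?_, hw⟩
        rw [mem_preimage, hw]
        exact φ.mem_image_f₀ z
      · exact Or.inr hw
    have h2 : (φ.f₀ '' univ).Countable := ((hc.image _).union (countable_singleton _)).mono hi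
    exact not_countable_complex
      (Set.MapsTo.countable_of_injOn (mapsTo_image φ.f₀ univ) φ.inj.injOn h2)

theorem finite_of_isolated_of_compact {X : Type*} [TopologicalSpace X] {A K : Set X} (hA : IsClosed A)
    (hK : IsCompact K) (h : ∀ x ∈ A, ∀ᶠ y in 𝓝[≠] x, y ∉ A) : (A ∩ K).Finite := by
  have hc : IsCompact (A ∩ K) := hK.inter_left hA
  by_contra hinf
  obtain ⟨x, hx, hacc⟩ := (show (A ∩ K).Infinite from hinf).exists_accPt_of_subset_isCompact hc
    Subset.rfl
  rw [accPt_iff_frequently_nhdsNE] at hacc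
  exact hacc ((h x hx.1).mono fun y hy hyA => hy hyA.1)

/-- two embedded projective lines are equal or meet in a finite set -/
theorem image_eq_or_finite [T2Space M] [IsManifold 𝓘(ℂ, Cm 2) ω M] (φ ψ : EmbP1 M) :
    φ.image = ψ.image ∨ (φ.image ∩ ψ.image).Finite := by
  have hcl : IsClosed φ.image := φ.isClosed_image
  rcases φ.isHypersurface.subset_or ψ.holo₀ with h0 | h0
  · exact Or.inl (image_eq_of_subset ψ φ (ψ.subset_of_f₀ hcl h0)).symm
  rcases φ.isHypersurface.subset_or ψ.holo₁ with h1 | h1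
  · have := ψ.swap.subset_of_f₀ hcl h1
    rw [ψ.image_swap] at this
    exact Or.inl (image_eq_of_subset ψ φ this).symm
  · right
    have e0 := finite_of_isolated_of_compact (hcl.preimage ψ.holo₀.continuous)
      (isCompact_closedBall (0 : ℂ) 1) (isolated_of_interior φ.isHypersurface ψ.holo₀ h0)
    have e1 := finite_of_isolated_of_compact (hcl.preimage ψ.holo₁.continuous)
      (isCompact_closedBall (0 : ℂ) 1) (isolated_of_interior φ.isHypersurface ψ.holo₁ h1)
    refine ((e0.image ψ.f₀).union (e1.image ψ.f₁)).subset ?_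
    rintro x ⟨hx, hx'⟩
    rw [ψ.image_eq one_pos] at hx'
    rcases hx' with ⟨w, hw, rfl⟩ | ⟨w, hw, rfl⟩
    · exact Or.inl ⟨w, ⟨hx, hw⟩, rfl⟩
    · exact Or.inr ⟨w, ⟨hx, by simpa using hw⟩, rfl⟩

end Vale.Agent.P267.H62
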