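import Vale.Agent.P267.H62.RouteS
import Vale.Agent.P267.H406.Geo
import Vale.Agent.P267.H457.Trans
import Vale.Agent.P267.H739.Out

/-!
# P267, endgame: `LineX.EndThm` by ROUTE S

Geometric input (helper406), analysis on the translates (helper457), the coordinates `x`, `T`
(helper739, 433, 701), the shell (helper62, 209, 615).
-/

open Set Filter Metric Topology
open scoped Manifold ContDiff
open Vale.Agent.P272.K (Cm)
open Vale.Agent.P267.FL Vale.Agent.P267.H158 Vale.Agent.P267.XT Vale.Agent.P267.H338
open Vale.Agent.P267.LineX Vale.Agent.P267.H757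

noncomputable section

namespace Vale.Agent.P267.H62

/-- **The end of the proof of the Global Spherical Shell conjecture, by ROUTE S.** -/
theorem endThm : EndThm := by
  intro X _ _ _ _ _ _ n O Ch hE
  have : LocallyConnectedSpace X := ChartedSpace.locallyConnectedSpace (Cm 2) X
  have : ConnectedSpace (Cov O.B.hh) := Cov.connectedSpace O.B.prim
  obtain ⟨l, φ, W, lam, x, -, G, -⟩ := H406.exists_geo Ch hE
  have hd0 : 0 < O.d₀ / 4 := (O.cone_b (Ch.ord.symm l)).d_pos
  obtain ⟨T, N₀, s, P⟩ := H739.exists_phiOut (O.cone_b (Ch.ord.symm (l + 1)))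
    (O.cone_b (Ch.ord.symm l)) (O.sol1 (Ch.ord.symm l).1) (O.sol2_b _) G
  exact hasGSS_of_phiOut Ch G P (by linarith)

end Vale.Agent.P267.H62
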