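import Vale.Agent.P267.H62.FinEnd
import Vale.Agent.P267.H701.Deg2
import Vale.Agent.P267.H615.Thin
import Vale.Agent.P267.H175.Thin

/-!
# P267, endgame, ROUTE S: the last (topological) step

Input `FinIn M`: `M` is a connected complex surface with a proper function `f` and a homeomorphism
`φ`, `f (φ x) = f x - 1`; `Φ` is holomorphic on an open set `N` which contains the inner end and is
bounded outward, `{x ∈ N | ‖Φ x‖ ≤ s}` is closed in `M` for `s < r`, `Φ → 0` at the inner end,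
`Y = {x ∈ N | Φ x = 0}` has no interior and every point of `Y` is joined inside `Y` with the inner
end; there are immersive points of `N`, alone in their fibre, arbitrarily near some point of `Y`;
and `Φ ∘ φ` is a contraction of `Φ` near `Y` and the inner end (in a Euclidean norm).

Output: the quotient `X` has a global spherical shell (`FinIn.hasGSS`), by the degree one theorem
(H701) and the theorem on contracting germs with a countable exceptional set (H615).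
-/

open Set Filter Metric Topology
open scoped Manifold ContDiff
open Vale.Agent.P272.K (Cm)

noncomputable section

namespace Vale.Agent.P267.H62

open Vale.Agent.P267.H701 (Imm Deg)
open Vale.Agent.P267.H615 (E2)

/-- Input of the last step of ROUTE S. -/
structure FinIn (M : Type*) [TopologicalSpace M] [ChartedSpace (Cm 2) M] where
  f : M → ℝ
  f_cont : Continuous f
  f_cpt : ∀ a b, IsCompact {x | a ≤ f x ∧ f x ≤ b}
  φ : M ≃ₜ M
  f_φ : ∀ x, f (φ x) = f x - 1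
  N : Set M
  isOpen : IsOpen N
  Φ : M → Cm 2
  md : ∀ x ∈ N, MDifferentiableAt 𝓘(ℂ, Cm 2) 𝓘(ℂ, Cm 2) Φ x
  r : ℝ
  r_pos : 0 < r
  closed : ∀ s < r, IsClosed {x | x ∈ N ∧ ‖Φ x‖ ≤ s}
  out : ∃ b, ∀ x ∈ N, f x ≤ b
  inn : ∀ ε > 0, ∃ R, ∀ x, f x ≤ R → x ∈ N ∧ ‖Φ x‖ < ε
  /-- every point of the zero set is joined with the end, inside of the zero set -/
  ends : ∀ y ∈ N, Φ y = 0 → ∀ R, ∃ C, IsPreconnected C ∧ y ∈ C ∧ (∀ z ∈ C, z ∈ N ∧ Φ z = 0) ∧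
    ∃ z ∈ C, f z ≤ R
  thin : ∀ y ∈ N, Φ y = 0 → ∃ᶠ z in 𝓝 y, Φ z ≠ 0
  one : ∃ y ∈ N, Φ y = 0 ∧ ∃ᶠ w in 𝓝 y, Φ w ≠ 0 ∧ Imm Φ w ∧ ∀ x ∈ N, Φ x = Φ w → x = w
  zero_mem : ∀ y ∈ N, Φ y = 0 → φ y ∈ N
  /-- the contraction -/
  A : Cm 2 ≃L[ℂ] E2
  c : ℝ
  c_nonneg : 0 ≤ c
  c_lt : c < 1
  N' : Set M
  isOpen' : IsOpen N'
  zero_mem' : ∀ y ∈ N, Φ y = 0 → y ∈ N'
  inn' : ∃ R, ∀ x, f x ≤ R → x ∈ N'
  con : ∀ x ∈ N, x ∈ N' → φ x ∈ N → ‖A (Φ (φ x))‖ ≤ c * ‖A (Φ x)‖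

namespace FinIn

variable {M : Type*} [TopologicalSpace M] [ChartedSpace (Cm 2) M] (D : FinIn M)

theorem cont : ContinuousOn D.Φ D.N := fun x hx => (D.md x hx).continuousAt.continuousWithinAt

theorem contA : ContinuousOn (fun x => ‖D.A (D.Φ x)‖) D.N :=
  (D.A.continuous.comp_continuousOn D.cont).norm

/-- The radius: where `‖A (Φ x)‖` is small, the contraction is available. -/
theorem exists_radius [T2Space M] : ∃ R > 0, ∃ s < D.r, (∀ v : Cm 2, ‖D.A v‖ < R → ‖v‖ ≤ s) ∧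
    ∀ x ∈ D.N, ‖D.A (D.Φ x)‖ < R → D.φ x ∈ D.N ∧ ‖D.A (D.Φ (D.φ x))‖ ≤ D.c * ‖D.A (D.Φ x)‖ := by
  -- the good open set
  set G : Set M := D.N ∩ D.N' ∩ D.φ ⁻¹' D.N with hG
  have hGo : IsOpen G := (D.isOpen.inter D.isOpen').inter (D.isOpen.preimage D.φ.continuous)
  obtain ⟨b, hb⟩ := D.out
  obtain ⟨R1, hR1⟩ := D.inn'
  obtain ⟨R2, hR2⟩ := D.inn 1 one_pos
  have hr2 : D.r / 2 < D.r := by have := D.r_pos; linarith
  set K : Set M := {x | x ∈ D.N ∧ ‖D.Φ x‖ ≤ D.r / 2} \ G with hK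
  have hKcl : IsClosed K := (D.closed _ hr2).sdiff hGo
  have hKc : IsCompact K := by
    refine (D.f_cpt (min R1 R2) b).of_isClosed_subset hKcl ?_
    rintro x ⟨⟨hx1, hx2⟩, hx3⟩
    refine ⟨?_, hb x hx1⟩
    by_contra hcon
    have hlt := not_le.1 hcon
    have h1 : D.f x ≤ R1 := hlt.le.trans (min_le_left _ _)
    have h2 : D.f x ≤ R2 := hlt.le.trans (min_le_right _ _)
    refine hx3 ⟨⟨hx1, hR1 x h1⟩, (hR2 (D.φ x) ?_).1⟩
    rw [D.f_φ]; linarith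
  have hpos : ∀ x ∈ K, 0 < ‖D.Φ x‖ := by
    rintro x ⟨⟨hx1, hx2⟩, hx3⟩
    rw [norm_pos_iff]
    intro h0
    exact hx3 ⟨⟨hx1, D.zero_mem' x hx1 h0⟩, D.zero_mem x hx1 h0⟩
  obtain ⟨m, hm, hmK⟩ : ∃ m : ℝ, 0 < m ∧ ∀ x ∈ K, m ≤ ‖D.Φ x‖ := by
    rcases K.eq_empty_or_nonempty with h | h
    · exact ⟨1, one_pos, by simp [h]⟩
    · obtain ⟨x0, hx0, hmin⟩ := hKc.exists_isMinOn h
        ((D.cont.mono fun x hx => hx.1.1).norm)
      exact ⟨_, hpos x0 hx0, fun x hx => hmin hx⟩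
  -- from `A` to the norm
  set s := min (m / 2) (D.r / 2) with hs
  have hs0 : 0 < s := lt_min (by linarith) (by have := D.r_pos; linarith)
  obtain ⟨C, hC0, hC⟩ : ∃ C : ℝ, 0 < C ∧ ∀ v : Cm 2, ‖v‖ ≤ C * ‖D.A v‖ := by
    refine ⟨‖(D.A.symm : E2 →L[ℂ] Cm 2)‖ + 1, by positivity, fun v => ?_⟩
    have h1 := (D.A.symm : E2 →L[ℂ] Cm 2).le_opNorm (D.A v)
    have h2 : (D.A.symm : E2 →L[ℂ] Cm 2) (D.A v) = v := D.A.symm_apply_apply v
    rw [h2] at h1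
    refine h1.trans ?_
    have := norm_nonneg (D.A v)
    nlinarith
  refine ⟨s / C, by positivity, s, (min_le_right _ _).trans_lt hr2, ?_, ?_⟩
  · intro v hv
    have h1 := hC v
    have h2 : C * ‖D.A v‖ < s := by
      have := (lt_div_iff₀ hC0).1 hv
      linarith
    linarith
  · intro x hx hxA
    have h1 : ‖D.Φ x‖ < s := by
      have h1 := hC (D.Φ x)
      have := (lt_div_iff₀ hC0).1 hxA
      linarith
    have hxG : x ∈ G := by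
      by_contra hcon
      have h2 := hmK x ⟨⟨hx, h1.le.trans (min_le_right _ _)⟩, hcon⟩
      have h3 : s ≤ m / 2 := min_le_left _ _
      linarith
    exact ⟨hxG.2, D.con x hx hxG.1.2 hxG.2⟩

/-- punctured balls are preconnected -/
theorem isPreconnected_punctured (A : Cm 2 ≃L[ℂ] E2) (R : ℝ) :
    IsPreconnected {v : Cm 2 | v ≠ 0 ∧ ‖A v‖ < R} := by
  have h1 : {v : Cm 2 | v ≠ 0 ∧ ‖A v‖ < R} = (A ⁻¹' ball 0 R) \ {0} := by
    ext v
    simp [and_comm]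
  rw [h1]
  have hconv : Convex ℝ (A ⁻¹' ball (0 : E2) R) := by
    have := (convex_ball (0 : E2) R).is_linear_preimage
      (f := fun v => A v) ⟨fun x y => map_add A x y, fun c x => by
        simpa using map_smul A (c : ℂ) x⟩
    exact this
  refine H175.isPreconnected_diff (E := Cm 2) (isOpen_ball.preimage A.continuous)
    hconv.isPreconnected ?_
  intro x _
  by_cases hx : x = 0
  · refine ⟨fun v => v 0, Eventually.of_forall fun v => ?_, ?_, ?_⟩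
    · exact (ContinuousLinearMap.proj (R := ℂ) (φ := fun _ : Fin 2 => ℂ) 0).differentiableAt.mdifferentiableAt
    · refine Eventually.of_forall fun v hv => ?_
      have : v = 0 := hv
      simp [this]
    · subst hx
      have h2 : Tendsto (fun t : ℂ => (fun _ => t : Cm 2)) (𝓝[≠] 0) (𝓝 0) := by
        have : Continuous (fun t : ℂ => (fun _ => t : Cm 2)) := by fun_prop
        exact (this.tendsto' 0 0 rfl).mono_left nhdsWithin_le_nhds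
      refine h2.frequently (Eventually.frequently ?_)
      filter_upwards [self_mem_nhdsWithin] with t ht
      exact ht
  · refine ⟨fun _ => 1, Eventually.of_forall fun v => mdifferentiableAt_const, ?_,
      Frequently.of_forall fun v => one_ne_zero⟩
    filter_upwards [isOpen_ne.mem_nhds hx] with v hv hv0
    exact absurd hv0 hv

/-- The component of `{x ∈ N | ‖A (Φ x)‖ < R}` which contains the inner end. -/
theorem exists_component [T2Space M] [ConnectedSpace M] {R : ℝ} (hR : 0 < R) {s : ℝ} (hs : s < D.r)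
    (hAs : ∀ v : Cm 2, ‖D.A v‖ < R → ‖v‖ ≤ s)
    (hcon : ∀ x ∈ D.N, ‖D.A (D.Φ x)‖ < R →
      D.φ x ∈ D.N ∧ ‖D.A (D.Φ (D.φ x))‖ ≤ D.c * ‖D.A (D.Φ x)‖) :
    ∃ Ω : Set M, IsOpen Ω ∧ IsPreconnected Ω ∧ (∀ x ∈ Ω, x ∈ D.N ∧ ‖D.A (D.Φ x)‖ < R) ∧
      (∃ R' : ℝ, ∀ x, D.f x ≤ R' → x ∈ Ω) ∧ (∀ x ∈ D.N, D.Φ x = 0 → x ∈ Ω) ∧
      (∀ x ∈ Ω, D.φ x ∈ Ω) ∧ ∀ t < R, IsClosed {x | x ∈ Ω ∧ ‖D.A (D.Φ x)‖ ≤ t} := by
  have : LocallyPathConnectedSpace M := ChartedSpace.locallyPathConnectedSpace (Cm 2) M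
  set NA : Set M := {x | x ∈ D.N ∧ ‖D.A (D.Φ x)‖ < R} with hNA
  have hNAo : IsOpen NA := D.contA.isOpen_inter_preimage D.isOpen isOpen_Iio
  -- the end
  obtain ⟨R1, hR1⟩ : ∃ R1, ∀ x, D.f x ≤ R1 → x ∈ NA := by
    have hA0 : 0 < ‖(D.A : Cm 2 →L[ℂ] E2)‖ + 1 := by positivity
    obtain ⟨R1, hR1⟩ := D.inn (R / (‖(D.A : Cm 2 →L[ℂ] E2)‖ + 1)) (by positivity)
    refine ⟨R1, fun x hx => ⟨(hR1 x hx).1, ?_⟩⟩
    have h1 := (D.A : Cm 2 →L[ℂ] E2).le_opNorm (D.Φ x)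
    have h2 := (hR1 x hx).2
    rw [lt_div_iff₀ hA0] at h2
    have h3 : ‖D.A (D.Φ x)‖ ≤ ‖(D.A : Cm 2 →L[ℂ] E2)‖ * ‖D.Φ x‖ := h1
    have h4 := norm_nonneg (D.Φ x)
    nlinarith
  obtain ⟨R2, V, hV, hRV, hVR⟩ := end_connected D.f_cont (D.f_cpt 0 2) D.f_φ R1
  have hVNA : V ⊆ NA := fun x hx => hR1 x (hVR hx).le
  -- a point in the end
  obtain ⟨xe, hxe⟩ : ∃ x, D.f x < R2 := by
    obtain ⟨y0⟩ := (inferInstance : Nonempty M)
    obtain ⟨k, hk⟩ := exists_nat_gt (D.f y0 - R2)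
    exact ⟨D.φ^[k] y0, by rw [f_iterate D.f_φ]; linarith⟩
  set Ω : Set M := connectedComponentIn NA xe with hΩ
  have hVΩ : V ⊆ Ω := hV.subset_connectedComponentIn (hRV hxe) hVNA
  have hΩNA : Ω ⊆ NA := connectedComponentIn_subset _ _
  have hΩo : IsOpen Ω := hNAo.connectedComponentIn
  have hsub : ∀ C : Set M, IsPreconnected C → C ⊆ NA → (C ∩ Ω).Nonempty → C ⊆ Ω := by
    rintro C hC hCNA ⟨z, hz1, hz2⟩
    have h1 := hC.subset_connectedComponentIn hz1 hCNA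
    rwa [hΩ, connectedComponentIn_eq hz2]
  have hYNA : ∀ x ∈ D.N, D.Φ x = 0 → x ∈ NA := fun x hx h0 => ⟨hx, by simp [h0, hR]⟩
  have hcNA : ∀ x ∈ NA, D.φ x ∈ NA := by
    intro x hx
    obtain ⟨h1, h2⟩ := hcon x hx.1 hx.2
    have h3 := norm_nonneg (D.A (D.Φ x))
    have h4 := hx.2
    have h5 := D.c_lt
    exact ⟨h1, by nlinarith⟩
  refine ⟨Ω, hΩo, isPreconnected_connectedComponentIn, fun x hx => hΩNA hx, ?_, ?_, ?_, ?_⟩
  · exact ⟨R2 - 1, fun x hx => hVΩ (hRV (show D.f x < R2 by linarith))⟩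
  · intro x hx h0
    obtain ⟨C, hC, hxC, hCY, z, hzC, hzR⟩ := D.ends x hx h0 (R2 - 1)
    refine hsub C hC (fun y hy => hYNA y (hCY y hy).1 (hCY y hy).2) ⟨z, hzC, ?_⟩ hxC
    exact hVΩ (hRV (show D.f z < R2 by linarith))
  · intro x hx
    have h1 : D.φ '' Ω ⊆ Ω := by
      refine hsub _ (isPreconnected_connectedComponentIn.image _ D.φ.continuous.continuousOn) ?_ ?_
      · rintro _ ⟨y, hy, rfl⟩
        exact hcNA y (hΩNA hy)
      · refine ⟨D.φ xe, ⟨xe, hVΩ (hRV hxe), rfl⟩, hVΩ (hRV ?_)⟩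
        have h3 : D.f xe < R2 := hxe
        show D.f (D.φ xe) < R2
        rw [D.f_φ]; linarith
    exact h1 ⟨x, hx, rfl⟩
  · intro t ht
    have hF : IsClosed {x | x ∈ D.N ∧ ‖D.A (D.Φ x)‖ ≤ t} := by
      have h1 : {x | x ∈ D.N ∧ ‖D.A (D.Φ x)‖ ≤ t} =
          {x | x ∈ D.N ∧ ‖D.Φ x‖ ≤ s} ∩ (fun x => ‖D.A (D.Φ x)‖) ⁻¹' Iic t := by
        ext x
        constructor
        · rintro ⟨h1, h2⟩
          exact ⟨⟨h1, hAs _ (h2.trans_lt ht)⟩, h2⟩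
        · rintro ⟨⟨h1, -⟩, h2⟩
          exact ⟨h1, h2⟩
      rw [h1]
      exact (D.contA.mono fun x hx => hx.1).preimage_isClosed_of_isClosed (D.closed s hs) isClosed_Iic
    rw [← isOpen_compl_iff, isOpen_iff_mem_nhds]
    intro q hq
    by_cases hqF : q ∈ {x | x ∈ D.N ∧ ‖D.A (D.Φ x)‖ ≤ t}
    · have hqNA : q ∈ NA := ⟨hqF.1, hqF.2.trans_lt ht⟩
      have hqΩ : q ∉ Ω := fun h => hq ⟨h, hqF.2⟩
      have h1 : connectedComponentIn NA q ∈ 𝓝 q :=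
        (hNAo.connectedComponentIn).mem_nhds (mem_connectedComponentIn hqNA)
      filter_upwards [h1] with y hy hy2
      have h2 := hsub _ isPreconnected_connectedComponentIn (connectedComponentIn_subset NA q)
        ⟨y, hy, hy2.1⟩
      exact hqΩ (h2 (mem_connectedComponentIn hqNA))
    · filter_upwards [hF.isOpen_compl.mem_nhds hqF] with y hy hy2
      exact hy ⟨(hΩNA hy2.1).1, hy2.2⟩

/-- **The last step of ROUTE S.** -/
theorem hasGSS [T2Space M] [ConnectedSpace M] [IsManifold 𝓘(ℂ, Cm 2) ω M]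
    {X : Type*} [TopologicalSpace X] [ChartedSpace (Cm 2) X]
    (p : M → X) (p_surj : Function.Surjective p) (p_holo : MDifferentiable 𝓘(ℂ, Cm 2) 𝓘(ℂ, Cm 2) p)
    (p_sec : ∀ y, ∃ s : X → M, s (p y) = y ∧ (∀ᶠ x in 𝓝 (p y), p (s x) = x) ∧
      MDifferentiableAt 𝓘(ℂ, Cm 2) 𝓘(ℂ, Cm 2) s (p y))
    (p_eq : ∀ y y', p y = p y' ↔ ∃ k : ℕ, D.φ^[k] y = y' ∨ D.φ^[k] y' = y) : HasGSS X := by
  have : IsManifold 𝓘(ℂ, Cm 2) 1 M := IsManifold.of_le (n := ω) le_top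
  have : SigmaCompactSpace M := by
    refine ⟨⟨fun n : ℕ => {x | -(n : ℝ) ≤ D.f x ∧ D.f x ≤ n}, fun n => D.f_cpt _ _, ?_⟩⟩
    rw [Set.eq_univ_iff_forall]
    intro x
    obtain ⟨n, hn⟩ := exists_nat_ge |D.f x|
    exact mem_iUnion.2 ⟨n, by constructor <;> linarith [neg_abs_le (D.f x), le_abs_self (D.f x)]⟩
  have : SecondCountableTopology M := ChartedSpace.secondCountable_of_sigmaCompact (Cm 2) M
  obtain ⟨R, hR, s, hs, hAs, hcon⟩ := D.exists_radius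
  obtain ⟨Ω, hΩo, hΩc, hΩN, ⟨R', hR'⟩, hYΩ, hφΩ, hΩcl⟩ := D.exists_component hR hs hAs hcon
  obtain ⟨b, hb⟩ := D.out
  set V : Set (Cm 2) := {v | v ≠ 0 ∧ ‖D.A v‖ < R} with hV
  have hVo : IsOpen V := by
    have h1 : IsOpen {v : Cm 2 | v ≠ 0} := isOpen_ne
    have h2 : IsOpen {v : Cm 2 | ‖D.A v‖ < R} := isOpen_lt D.A.continuous.norm continuous_const
    exact h1.inter h2
  set W : Set M := Ω \ {x | D.Φ x = 0} with hW
  have hWmem : ∀ x, x ∈ W ↔ x ∈ Ω ∧ D.Φ x ≠ 0 := fun x => Iff.rfl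
  have hcontΩ : ContinuousOn D.Φ Ω := D.cont.mono fun x hx => (hΩN x hx).1
  have hWo : IsOpen W := hcontΩ.isOpen_inter_preimage hΩo isOpen_ne
  have hWc : IsPreconnected W := by
    refine H175.isPreconnected_diff (E := Cm 2) hΩo hΩc ?_
    intro x hx
    have hxN := (hΩN x hx).1
    have hfr : ∃ᶠ z in 𝓝 x, D.Φ z ≠ 0 := by
      by_cases h0 : D.Φ x = 0
      · exact D.thin x hxN h0
      · exact (((D.md x hxN).continuousAt).eventually_ne h0).frequently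
    have hfr2 : ∃ i, ∃ᶠ z in 𝓝 x, D.Φ z i ≠ 0 := by
      by_contra hcon
      push Not at hcon
      have h0 := (hcon 0)
      have h1 := (hcon 1)
      apply hfr
      filter_upwards [h0, h1] with z hz0 hz1
      push Not
      ext i
      fin_cases i
      · simpa using hz0
      · simpa using hz1
    obtain ⟨i, hi⟩ := hfr2
    refine ⟨fun z => D.Φ z i, ?_, ?_, hi⟩
    · filter_upwards [D.isOpen.mem_nhds hxN] with z hz
      exact ((ContinuousLinearMap.proj (R := ℂ) (φ := fun _ : Fin 2 => ℂ) i).differentiableAt.mdifferentiableAt).comp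
        z (D.md z hz)
    · refine Eventually.of_forall fun z hz => ?_
      have : D.Φ z = 0 := hz
      simp [this]
  -- the good points
  obtain ⟨y0, hy0N, hy0, hfr⟩ := D.one
  obtain ⟨w, ⟨hw0, hwi, hwu⟩, hwΩ⟩ := (hfr.and_eventually (hΩo.mem_nhds (hYΩ y0 hy0N hy0))).exists
  have hwW : w ∈ W := ⟨hwΩ, hw0⟩
  have hmdW : ∀ x ∈ W, MDifferentiableAt 𝓘(ℂ, Cm 2) 𝓘(ℂ, Cm 2) D.Φ x := fun x hx =>
    D.md x (hΩN x hx.1).1
  have hdeg : Deg D.Φ W V := by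
    refine ⟨hWo, hmdW, H701.dense_of_preconnected hWc hWo hmdW ⟨w, hwW, hwi⟩, hVo,
      isPreconnected_punctured D.A R, ?_, ⟨w, hwW, ⟨hw0, (hΩN w hwΩ).2⟩, hwi,
        fun x hx he => hwu x (hΩN x hx.1).1 he⟩⟩
    intro K hKV hK
    rcases K.eq_empty_or_nonempty with h | hne
    · subst h; simp
    obtain ⟨v1, hv1, hv1m⟩ := hK.exists_isMaxOn hne (D.A.continuous.norm.continuousOn)
    obtain ⟨v0, hv0, hv0m⟩ := hK.exists_isMinOn hne (continuous_norm.continuousOn)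
    obtain ⟨R3, hR3⟩ := D.inn ‖v0‖ (norm_pos_iff.2 (hKV hv0).1)
    have hcl : IsClosed ({x | x ∈ Ω ∧ ‖D.A (D.Φ x)‖ ≤ ‖D.A v1‖} ∩ D.Φ ⁻¹' K) :=
      (hcontΩ.mono fun x hx => hx.1).preimage_isClosed_of_isClosed (hΩcl _ (hKV hv1).2) hK.isClosed
    have heq : W ∩ D.Φ ⁻¹' K = {x | x ∈ Ω ∧ ‖D.A (D.Φ x)‖ ≤ ‖D.A v1‖} ∩ D.Φ ⁻¹' K := by
      ext x
      constructor
      · rintro ⟨h1, h2⟩
        exact ⟨⟨h1.1, hv1m h2⟩, h2⟩
      · rintro ⟨⟨h1, -⟩, h2⟩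
        exact ⟨⟨h1, (hKV h2).1⟩, h2⟩
    rw [heq]
    refine (D.f_cpt R3 b).of_isClosed_subset hcl ?_
    rintro x ⟨⟨h1, -⟩, h2⟩
    refine ⟨?_, hb x (hΩN x h1).1⟩
    by_contra hcon2
    have h3 := (hR3 x (not_le.1 hcon2).le).2
    have h4 : ‖v0‖ ≤ ‖D.Φ x‖ := hv0m h2
    linarith
  obtain ⟨S, hSV, hScount, hSo, -, -, -, -, Θ, hΘ1, hΘ2⟩ := H701.deg_one hdeg
  refine H615.hasGSS_of_countable p p_surj p_holo p_sec D.φ p_eq Ω hΩo D.Φ hcontΩ D.A R hR S hScount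
    ?_ Θ ?_ ?_ ?_ ?_ ?_ hΩcl D.c D.c_nonneg D.c_lt ?_ ?_ ?_
  · intro x hxS hx0 hxR
    filter_upwards [hSo.mem_nhds ⟨⟨hx0, hxR⟩, hxS⟩] with y hy
    exact hy.2
  · intro y hy _ _ _
    exact D.md y (hΩN y hy).1
  · intro x hx0 hxS hxR
    exact (hΘ1 x ⟨⟨hx0, hxR⟩, hxS⟩).2.2.2
  · intro x hx0 hxS hxR
    exact (hΘ1 x ⟨⟨hx0, hxR⟩, hxS⟩).1.1
  · intro x hx0 hxS hxR
    exact (hΘ1 x ⟨⟨hx0, hxR⟩, hxS⟩).2.1
  · intro y hy hy0 hyS hyR
    exact hΘ2 y ⟨hy, hy0⟩ ⟨⟨hy0, hyR⟩, hyS⟩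
  · intro y hy _
    exact ⟨hφΩ y hy, (hcon y (hΩN y hy).1 (hΩN y hy).2).2⟩
  · intro y
    obtain ⟨k, hk⟩ := exists_nat_ge (D.f y - R')
    have h1 : D.φ^[k] y ∈ Ω := hR' _ (by rw [f_iterate D.f_φ]; linarith)
    exact ⟨k, h1, (hΩN _ h1).2⟩
  · intro y
    obtain ⟨k, hk⟩ := exists_nat_gt (b - D.f y)
    refine ⟨k, fun h => ?_⟩
    have h1 := hb _ (hΩN _ h).1
    rw [f_iterate_symm D.f_φ] at h1
    linarith

end FinIn

end Vale.Agent.P267.H62
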