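import Vale.Agent.P267.H62.Fin
import Vale.Agent.P267.H456.Assembly
import Vale.Agent.P267.H332.Pair.Deck2
import Vale.Agent.P267.H622.CovMaps
import Vale.Agent.P267.H399.Calc3

/-!
# P267, endgame, ROUTE S: the last step on the infinite cyclic cover

`hasGSS_cov`: `FinIn.hasGSS` for the infinite cyclic cover of `X`; `FinXT B`: the input in terms of
the function `x` and `T` and of the data `B : Asm.Base X`; `FinXT.hasGSS`.
-/

open Set Filter Metric Topology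
open scoped Manifold ContDiff
open Vale.Agent.P272.K (Cm)
open Vale.Agent.P267.FL Vale.Agent.P267.H158 Vale.Agent.P267.XT

noncomputable section

namespace Vale.Agent.P267.H62

open Vale.Agent.P267.H701 (Imm)
open Vale.Agent.P267.H615 (E2)

section Cover

variable {X : Type} [TopologicalSpace X] [ChartedSpace C2 X] [IsManifold 𝓘(ℂ, C2) ω X]
  {hh : C(X, UnitAddCircle)}

/-- local holomorphic sections of the covering -/
theorem cov_sec (y : Cov hh) : ∃ s : X → Cov hh, s (Cov.p y) = y ∧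
    (∀ᶠ x in 𝓝 (Cov.p y), Cov.p (s x) = x) ∧
    MDifferentiableAt 𝓘(ℂ, C2) 𝓘(ℂ, C2) s (Cov.p y) := by
  obtain ⟨Φ, hy, hΦ⟩ := H332.isLocalDiffeomorph_of_chartMap (chartMap_p (hh := hh)) y
  have h1 : Cov.p y ∈ Φ.target := by
    rw [hΦ hy]; exact Φ.map_source' hy
  refine ⟨Φ.symm, ?_, ?_, ?_⟩
  · rw [hΦ hy]; exact Φ.left_inv' hy
  · filter_upwards [Φ.open_target.mem_nhds h1] with x hx
    have h2 : Φ.symm x ∈ Φ.source := Φ.map_target' hx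
    rw [hΦ h2]
    exact Φ.right_inv' hx
  · exact (Φ.contMDiffOn_invFun.contMDiffAt (Φ.open_target.mem_nhds h1)).mdifferentiableAt (by simp)

omit [ChartedSpace C2 X] [IsManifold 𝓘(ℂ, C2) ω X] in
theorem iterate_shift {φ : Cov hh ≃ₜ Cov hh} (hφ : ∀ x, φ x = Cov.shift (-1) x) (k : ℕ)
    (x : Cov hh) : φ^[k] x = Cov.shift (-(k : ℤ)) x := by
  induction k with
  | zero => simp
  | succ k ih =>
    rw [Function.iterate_succ_apply', ih, hφ, ← Cov.shift_add]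
    congr 1
    push_cast
    ring_nf

omit [ChartedSpace C2 X] [IsManifold 𝓘(ℂ, C2) ω X] in
theorem p_eq_iff_iterate {φ : Cov hh ≃ₜ Cov hh} (hφ : ∀ x, φ x = Cov.shift (-1) x)
    (y y' : Cov hh) : Cov.p y = Cov.p y' ↔ ∃ k : ℕ, φ^[k] y = y' ∨ φ^[k] y' = y := by
  constructor
  · intro h
    obtain ⟨k, hk⟩ := Cov.p_eq_iff.1 h
    rcases le_total 0 k with h0 | h0
    · refine ⟨k.toNat, Or.inr ?_⟩
      rw [iterate_shift hφ, Int.toNat_of_nonneg h0, hk, Cov.shift_neg_shift]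
    · refine ⟨(-k).toNat, Or.inl ?_⟩
      rw [iterate_shift hφ, Int.toNat_of_nonneg (by omega), neg_neg, hk]
  · rintro ⟨k, h | h⟩
    · rw [← h, iterate_shift hφ, Cov.p_shift]
    · rw [← h, iterate_shift hφ, Cov.p_shift]

/-- `FinIn.hasGSS` for the infinite cyclic cover -/
theorem hasGSS_cov [T2Space X] [ConnectedSpace X] (hprim : Primitive hh) (D : FinIn (Cov hh))
    (hφ : ∀ x, D.φ x = Cov.shift (-1) x) : HasGSS X := by
  have : LocallyConnectedSpace X := ChartedSpace.locallyConnectedSpace C2 X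
  have : ConnectedSpace (Cov hh) := Cov.connectedSpace hprim
  exact D.hasGSS Cov.p Cov.surjective_p
    ((Cov.contMDiff_p (n := ω) 𝓘(ℂ, C2)).mdifferentiable (by simp)) cov_sec (p_eq_iff_iterate hφ)

end Cover

/-! ### the norm with weight `Λ` -/

/-- `v ↦ (Λ v₀, v₁)` with the Euclidean norm -/
def wA (Λ : ℝ) (hΛ : 0 < Λ) : Cm 2 ≃L[ℂ] E2 :=
  (LinearEquiv.toContinuousLinearEquiv
    { toFun := fun v => ![(Λ : ℂ) * v 0, v 1]
      invFun := fun v => ![(Λ : ℂ)⁻¹ * v 0, v 1]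
      map_add' := by
        intro u v; ext i; fin_cases i <;> simp [mul_add]
      map_smul' := by
        intro a v; ext i; fin_cases i <;> simp [mul_left_comm]
      left_inv := by
        intro v
        have h : (Λ : ℂ) ≠ 0 := by exact_mod_cast hΛ.ne'
        ext i; fin_cases i <;> simp [h]
      right_inv := by
        intro v
        have h : (Λ : ℂ) ≠ 0 := by exact_mod_cast hΛ.ne'
        ext i; fin_cases i <;> simp [h] } : Cm 2 ≃L[ℂ] Cm 2).trans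
    (EuclideanSpace.equiv (Fin 2) ℂ).symm

theorem norm_wA_sq {Λ : ℝ} (hΛ : 0 < Λ) (v : Cm 2) :
    ‖wA Λ hΛ v‖ ^ 2 = (Λ * ‖v 0‖) ^ 2 + ‖v 1‖ ^ 2 := by
  have h : wA Λ hΛ v = (WithLp.toLp 2 ![(Λ : ℂ) * v 0, v 1] : E2) := rfl
  rw [h, EuclideanSpace.norm_sq_eq, Fin.sum_univ_two]
  simp [abs_of_pos hΛ]

/-! ### maps given by two functions -/

section Pair

section NoTop

variable {M : Type*}

/-- the map `(x, T)` -/
def pr2 (x T : M → ℂ) (p : M) : Cm 2 := ![x p, T p]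

@[simp] theorem pr2_zero (x T : M → ℂ) (p : M) : pr2 x T p 0 = x p := rfl
@[simp] theorem pr2_one (x T : M → ℂ) (p : M) : pr2 x T p 1 = T p := rfl

theorem pr2_eq_iff {x T : M → ℂ} {p q : M} : pr2 x T p = pr2 x T q ↔ x p = x q ∧ T p = T q := by
  constructor
  · intro h
    exact ⟨congrFun h 0, congrFun h 1⟩
  · rintro ⟨h1, h2⟩
    ext i
    fin_cases i
    · exact h1
    · exact h2

theorem pr2_eq_zero {x T : M → ℂ} {p : M} : pr2 x T p = 0 ↔ x p = 0 ∧ T p = 0 := by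
  constructor
  · intro h
    exact ⟨congrFun h 0, congrFun h 1⟩
  · rintro ⟨h1, h2⟩
    ext i
    fin_cases i
    · exact h1
    · exact h2

theorem norm_pr2_le_iff {x T : M → ℂ} {p : M} {s : ℝ} (hs : 0 ≤ s) :
    ‖pr2 x T p‖ ≤ s ↔ ‖x p‖ ≤ s ∧ ‖T p‖ ≤ s := by
  rw [pi_norm_le_iff_of_nonneg hs, Fin.forall_fin_two]
  rfl

theorem norm_pr2_lt_iff {x T : M → ℂ} {p : M} {s : ℝ} (hs : 0 < s) :
    ‖pr2 x T p‖ < s ↔ ‖x p‖ < s ∧ ‖T p‖ < s := by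
  rw [pi_norm_lt_iff hs, Fin.forall_fin_two]
  rfl

/-- `z ↦ z e_i` -/
def li (i : Fin 2) : ℂ →L[ℂ] Cm 2 := ContinuousLinearMap.single ℂ (fun _ : Fin 2 => ℂ) i

theorem pr2_eq_li (x T : M → ℂ) : pr2 x T = fun p => li 0 (x p) + li 1 (T p) := by
  funext p
  ext i
  fin_cases i <;> simp [li, pr2]

end NoTop

variable {M : Type*} [TopologicalSpace M] [ChartedSpace (Cm 2) M]

theorem hasMFDerivAt_pr2 {x T : M → ℂ} {p : M} {Lx LT : Cm 2 →L[ℂ] ℂ}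
    (hx : HasMFDerivAt 𝓘(ℂ, Cm 2) 𝓘(ℂ) x p Lx) (hT : HasMFDerivAt 𝓘(ℂ, Cm 2) 𝓘(ℂ) T p LT) :
    HasMFDerivAt 𝓘(ℂ, Cm 2) 𝓘(ℂ, Cm 2) (pr2 x T) p ((li 0).comp Lx + (li 1).comp LT) := by
  rw [pr2_eq_li]
  have h1 := ((li 0).hasFDerivAt (x := x p)).hasMFDerivAt.comp p hx
  have h2 := ((li 1).hasFDerivAt (x := T p)).hasMFDerivAt.comp p hT
  exact h1.add h2

theorem mdiff_pr2 {x T : M → ℂ} {p : M} (hx : MDifferentiableAt 𝓘(ℂ, Cm 2) 𝓘(ℂ) x p)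
    (hT : MDifferentiableAt 𝓘(ℂ, Cm 2) 𝓘(ℂ) T p) :
    MDifferentiableAt 𝓘(ℂ, Cm 2) 𝓘(ℂ, Cm 2) (pr2 x T) p :=
  (hasMFDerivAt_pr2 hx.hasMFDerivAt hT.hasMFDerivAt).mdifferentiableAt

/-- On a curve `c` with `x ∘ c = 0`, `T ∘ c = t` the map `(x, T)` is immersive where `dx ≠ 0`. -/
theorem imm_of_curve {x T : M → ℂ} {c : ℂ → M} {t : ℂ}
    (hx : MDifferentiableAt 𝓘(ℂ, Cm 2) 𝓘(ℂ) x (c t))
    (hT : MDifferentiableAt 𝓘(ℂ, Cm 2) 𝓘(ℂ) T (c t))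
    (hc : MDifferentiableAt 𝓘(ℂ) 𝓘(ℂ, Cm 2) c t)
    (hxc : ∀ᶠ s in 𝓝 t, x (c s) = 0) (hTc : ∀ᶠ s in 𝓝 t, T (c s) = s)
    (hdx : mfderiv 𝓘(ℂ, Cm 2) 𝓘(ℂ) x (c t) ≠ 0) : Imm (pr2 x T) (c t) := by
  obtain ⟨Lx, hLx⟩ : ∃ L : Cm 2 →L[ℂ] ℂ, HasMFDerivAt 𝓘(ℂ, Cm 2) 𝓘(ℂ) x (c t) L :=
    ⟨_, hx.hasMFDerivAt⟩
  obtain ⟨LT, hLT⟩ : ∃ L : Cm 2 →L[ℂ] ℂ, HasMFDerivAt 𝓘(ℂ, Cm 2) 𝓘(ℂ) T (c t) L :=
    ⟨_, hT.hasMFDerivAt⟩
  obtain ⟨Lc, hLc⟩ : ∃ L : ℂ →L[ℂ] Cm 2, HasMFDerivAt 𝓘(ℂ) 𝓘(ℂ, Cm 2) c t L :=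
    ⟨_, hc.hasMFDerivAt⟩
  have h1 : Lx.comp Lc = 0 := by
    have h2 : HasMFDerivAt 𝓘(ℂ) 𝓘(ℂ) (x ∘ c) t (Lx.comp Lc) := hLx.comp t hLc
    have h3 : HasFDerivAt (x ∘ c) (Lx.comp Lc) t := hasMFDerivAt_iff_hasFDerivAt.1 h2
    have h4 : HasFDerivAt (x ∘ c) (0 : ℂ →L[ℂ] ℂ) t :=
      (hasFDerivAt_const (0 : ℂ) t).congr_of_eventuallyEq hxc
    exact h3.unique h4
  have h5 : LT.comp Lc = ContinuousLinearMap.id ℂ ℂ := by
    have h2 : HasMFDerivAt 𝓘(ℂ) 𝓘(ℂ) (T ∘ c) t (LT.comp Lc) := hLT.comp t hLc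
    have h3 : HasFDerivAt (T ∘ c) (LT.comp Lc) t := hasMFDerivAt_iff_hasFDerivAt.1 h2
    have h4 : HasFDerivAt (T ∘ c) (ContinuousLinearMap.id ℂ ℂ) t :=
      (hasFDerivAt_id t).congr_of_eventuallyEq hTc
    exact h3.unique h4
  have hLx0 : Lx ≠ 0 := by
    intro h
    apply hdx
    rw [hLx.mfderiv, h]
    rfl
  obtain ⟨w, hw⟩ : ∃ w, Lx w ≠ 0 := by
    by_contra hcon
    push Not at hcon
    exact hLx0 (ContinuousLinearMap.ext hcon)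
  set L : Cm 2 →L[ℂ] Cm 2 := (li 0).comp Lx + (li 1).comp LT with hL
  have hLm : HasMFDerivAt 𝓘(ℂ, Cm 2) 𝓘(ℂ, Cm 2) (pr2 x T) (c t) L := hasMFDerivAt_pr2 hLx hLT
  have hLv : ∀ v, L v = ![Lx v, LT v] := by
    intro v
    ext i
    fin_cases i <;> simp [hL, li]
  set u := Lc 1 with hu
  have hxu : Lx u = 0 := by
    have := congrArg (fun K : ℂ →L[ℂ] ℂ => K 1) h1
    simpa using this
  have hTu : LT u = 1 := by
    have := congrArg (fun K : ℂ →L[ℂ] ℂ => K 1) h5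
    simpa using this
  have hsurj : Function.Surjective L.toLinearMap := by
    intro v
    refine ⟨(v 0 / Lx w) • w + (v 1 - (v 0 / Lx w) * LT w) • u, ?_⟩
    change L _ = v
    rw [hLv]
    ext i
    fin_cases i
    · simp [hxu, hw]
    · simp [hTu]
  have hinj : Function.Injective L.toLinearMap := LinearMap.injective_iff_surjective.2 hsurj
  unfold Imm
  rw [hLm.mfderiv]
  exact hinj

end Pair

/-! ### input of the last step in terms of `x` and `T` -/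

/-- Input of the last step of ROUTE S: the functions `x`, `T` (note 3375 of helper739) on a
neighbourhood `N` of `Y = {x = T = 0} ∩ N` and the inner end. -/
structure FinXT {M : Type} [TopologicalSpace M] [ChartedSpace C2 M] (D : XTData M) where
  N : Set M
  isOpen : IsOpen N
  x : M → ℂ
  T : M → ℂ
  x_md : ∀ p ∈ N, MDifferentiableAt 𝓘(ℂ, C2) 𝓘(ℂ) x p
  T_md : ∀ p ∈ N, MDifferentiableAt 𝓘(ℂ, C2) 𝓘(ℂ) T p
  r : ℝ
  r_pos : 0 < r
  closed : ∀ s, 0 ≤ s → s < r → IsClosed {p | p ∈ N ∧ ‖x p‖ ≤ s ∧ ‖T p‖ ≤ s}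
  out : ∃ b, ∀ p ∈ N, D.f p ≤ b
  inn : ∀ ε > 0, ∃ R, ∀ p, D.f p ≤ R → p ∈ N ∧ ‖x p‖ < ε ∧ ‖T p‖ < ε
  /-- every point of the zero set is joined with the end, inside of the zero set -/
  ends : ∀ y ∈ N, x y = 0 → T y = 0 → ∀ R, ∃ C, IsPreconnected C ∧ y ∈ C ∧
    (∀ z ∈ C, z ∈ N ∧ x z = 0 ∧ T z = 0) ∧ ∃ z ∈ C, D.f z ≤ R
  thin : ∀ y ∈ N, x y = 0 → T y = 0 → ∃ᶠ z in 𝓝 y, x z ≠ 0
  zero_mem : ∀ y ∈ N, x y = 0 → T y = 0 → D.sh (-1) y ∈ N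
  /-- the curve `{x = 0, T = t}`, `0 < |t|` small -/
  disc : ∃ c : ℂ → M, c 0 ∈ N ∧ x (c 0) = 0 ∧ T (c 0) = 0 ∧ ContinuousAt c 0 ∧
    ∀ᶠ t in 𝓝[≠] (0 : ℂ), Imm (pr2 x T) (c t) ∧ x (c t) = 0 ∧ T (c t) = t ∧
      ∀ p ∈ N, x p = 0 → T p = t → p = c t
  /-- the contraction -/
  Λ : ℝ
  Λ_pos : 0 < Λ
  c : ℝ
  c_nonneg : 0 ≤ c
  c_lt : c < 1
  N' : Set M
  isOpen' : IsOpen N'
  zero_mem' : ∀ y ∈ N, x y = 0 → T y = 0 → y ∈ N'
  inn' : ∃ R, ∀ p, D.f p ≤ R → p ∈ N'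
  con : ∀ p ∈ N, p ∈ N' → D.sh (-1) p ∈ N →
    (Λ * ‖x (D.sh (-1) p)‖) ^ 2 + ‖T (D.sh (-1) p)‖ ^ 2 ≤
      c ^ 2 * ((Λ * ‖x p‖) ^ 2 + ‖T p‖ ^ 2)

namespace FinXT

variable {M : Type} [TopologicalSpace M] [ChartedSpace C2 M] {D : XTData M} (F : FinXT D)

theorem symm_eq (D : XTData M) (p : M) : D.γ.symm p = D.sh (-1) p := by
  apply D.γ.injective
  rw [D.γ.apply_symm_apply, ← D.sh_one, ← D.sh_add]
  simp

/-- the input of `FinIn.hasGSS` -/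
def toFinIn [IsManifold 𝓘(ℂ, C2) ω M] : FinIn M where
  f := D.f
  f_cont := by
    have h := Complex.continuous_re.comp D.f_smooth.continuous
    exact h
  f_cpt := D.f_proper
  φ := D.γ.symm
  f_φ := fun p => by rw [symm_eq, D.f_sh]; push_cast; ring
  N := F.N
  isOpen := F.isOpen
  Φ := pr2 F.x F.T
  md := fun p hp => mdiff_pr2 (F.x_md p hp) (F.T_md p hp)
  r := F.r
  r_pos := F.r_pos
  closed := by
    intro s hs
    rcases le_or_gt 0 s with h | h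
    · simp_rw [norm_pr2_le_iff h]
      exact F.closed s h hs
    · have : {p | p ∈ F.N ∧ ‖pr2 F.x F.T p‖ ≤ s} = ∅ := by
        rw [Set.eq_empty_iff_forall_notMem]
        rintro p ⟨-, h2⟩
        exact absurd (norm_nonneg _) (not_le.2 (h2.trans_lt h))
      rw [this]
      exact isClosed_empty
  out := F.out
  inn := by
    intro ε hε
    obtain ⟨R, hR⟩ := F.inn ε hε
    exact ⟨R, fun p hp => ⟨(hR p hp).1, (norm_pr2_lt_iff hε).2 (hR p hp).2⟩⟩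
  ends := by
    intro y hy h0 R
    obtain ⟨h1, h2⟩ := pr2_eq_zero.1 h0
    obtain ⟨C, hC, hyC, hCN, hz⟩ := F.ends y hy h1 h2 R
    exact ⟨C, hC, hyC, fun z hz => ⟨(hCN z hz).1, pr2_eq_zero.2 (hCN z hz).2⟩, hz⟩
  thin := by
    intro y hy h0
    obtain ⟨h1, h2⟩ := pr2_eq_zero.1 h0
    exact (F.thin y hy h1 h2).mono fun z hz h => hz (pr2_eq_zero.1 h).1
  one := by
    obtain ⟨c, hc0, hx0, hT0, hcc, hev⟩ := F.disc
    refine ⟨c 0, hc0, pr2_eq_zero.2 ⟨hx0, hT0⟩, ?_⟩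
    have h1 : Tendsto c (𝓝[≠] 0) (𝓝 (c 0)) := hcc.tendsto.mono_left nhdsWithin_le_nhds
    have h2 : ∃ᶠ t in 𝓝[≠] (0 : ℂ), pr2 F.x F.T (c t) ≠ 0 ∧ Imm (pr2 F.x F.T) (c t) ∧
        ∀ q ∈ F.N, pr2 F.x F.T q = pr2 F.x F.T (c t) → q = c t := by
      refine Eventually.frequently ?_
      filter_upwards [hev, self_mem_nhdsWithin] with t ht ht0
      obtain ⟨hi, hx, hT, hu⟩ := ht
      refine ⟨fun h => ht0 ?_, hi, fun q hq he => ?_⟩
      · have := (pr2_eq_zero.1 h).2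
        rw [hT] at this
        exact this
      · obtain ⟨h3, h4⟩ := pr2_eq_iff.1 he
        exact hu q hq (h3.trans hx) (h4.trans hT)
    exact h1.frequently h2
  zero_mem := by
    intro y hy h0
    obtain ⟨h1, h2⟩ := pr2_eq_zero.1 h0
    rw [symm_eq]
    exact F.zero_mem y hy h1 h2
  A := wA F.Λ F.Λ_pos
  c := F.c
  c_nonneg := F.c_nonneg
  c_lt := F.c_lt
  N' := F.N'
  isOpen' := F.isOpen'
  zero_mem' := by
    intro y hy h0
    obtain ⟨h1, h2⟩ := pr2_eq_zero.1 h0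
    exact F.zero_mem' y hy h1 h2
  inn' := F.inn'
  con := by
    intro p hp hp' hpN
    rw [symm_eq] at hpN ⊢
    have h1 := F.con p hp hp' hpN
    have h2 := norm_wA_sq F.Λ_pos (pr2 F.x F.T (D.sh (-1) p))
    have h3 := norm_wA_sq F.Λ_pos (pr2 F.x F.T p)
    simp only [pr2_zero, pr2_one] at h2 h3
    rw [← h2, ← h3, ← mul_pow] at h1
    exact le_of_sq_le_sq h1 (mul_nonneg F.c_nonneg (norm_nonneg _))

end FinXT

/-- **The last step of ROUTE S**: `x`, `T` on the infinite cyclic cover give a global spherical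
shell. -/
theorem hasGSS_of_finXT {X : Type} [TopologicalSpace X] [ChartedSpace C2 X]
    [IsManifold 𝓘(ℂ, C2) ω X] [T2Space X] [ConnectedSpace X] (B : Asm.Base X) (F : FinXT B.D) :
    HasGSS X := by
  refine hasGSS_cov B.prim F.toFinIn fun p => ?_
  change B.D.γ.symm p = _
  apply B.D.γ.injective
  rw [B.D.γ.apply_symm_apply, B.γ_eq, Cov.γ, Cov.shift_shift_neg]

end Vale.Agent.P267.H62
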