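import Vale.Agent.P267.H815.Div
import Vale.Agent.P267.H338.Riem
import Vale.Agent.P267.H757.NF5

/-! P267, package D-NFDIV (helper62): norm functions and effective divisors with a metric. -/

open Set Filter Topology Metric
open scoped Manifold ContDiff
open Vale.Agent.P272.K
open Vale.Agent.P267.H757 (IsNormFn LocRep)
open Vale.Agent.P267.H815 (HolN UnitN Assoc IsSum)

namespace Vale.Agent.P267.H62

variable {X : Type*} [TopologicalSpace X] [ChartedSpace (Cm 2) X]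
variable {N N' : X → ℝ} {U U' : Set X} {g g' : X → ℂ} {φ φ' : X → ℝ}

theorem locRep_frequently (h : LocRep (Cm 2) N U g φ) {y : X} (hy : y ∈ U) :
    ∃ᶠ z in 𝓝 y, g z ≠ 0 := by
  intro hcon
  have h1 : ∀ᶠ z in 𝓝 y, g z = 0 := by
    filter_upwards [hcon] with z hz using not_not.1 hz
  obtain ⟨B, hB, hBo, hyB⟩ := mem_nhds_iff.1 h1
  obtain ⟨x, hx, hx0⟩ := h.nz (B ∩ U) (hBo.inter h.isOpen) inter_subset_right ⟨y, hyB, hy⟩
  exact hx0 (hB hx.1)

/-- Two holomorphic functions with `‖g‖ = ‖g'‖ e^ψ` near `p`, `ψ` continuous, differ by a unit. -/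
theorem assoc_of_norm_eq [IsManifold 𝓘(ℂ, Cm 2) ω X] {V : Set X} (hV : IsOpen V) {p : X}
    (hp : p ∈ V) (hg : MDifferentiableOn 𝓘(ℂ, Cm 2) 𝓘(ℂ) g V)
    (hg' : MDifferentiableOn 𝓘(ℂ, Cm 2) 𝓘(ℂ) g' V) (hne : ∀ x ∈ V, ∃ᶠ y in 𝓝 x, g' y ≠ 0)
    {ψ : X → ℝ} (hψ : ContinuousOn ψ V) (h : ∀ x ∈ V, ‖g x‖ = ‖g' x‖ * Real.exp (ψ x)) :
    Assoc g g' p := by
  have hM1 : IsManifold 𝓘(ℂ, Cm 2) 1 X := IsManifold.of_le (n := ω) le_top
  set e := chartAt (Cm 2) p with he
  have hps : p ∈ e.source := mem_chart_source _ p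
  have he1 : e ∈ IsManifold.maximalAtlas 𝓘(ℂ, Cm 2) 1 X := IsManifold.chart_mem_maximalAtlas p
  set O : Set (Cm 2) := e.target ∩ e.symm ⁻¹' V with hO
  have hOo : IsOpen O := e.isOpen_inter_preimage_symm hV
  have hpO : e p ∈ O := ⟨e.map_source hps, by rw [mem_preimage, e.left_inv hps]; exact hp⟩
  have hG : DifferentiableOn ℂ (g ∘ e.symm) O := H757.differentiableOn_chart he1 hg
  have hG' : DifferentiableOn ℂ (g' ∘ e.symm) O := H757.differentiableOn_chart he1 hg'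
  have hfr : ∀ x ∈ O, ∃ᶠ y in 𝓝 x, (g' ∘ e.symm) y ≠ 0 := by
    intro x hx hcon
    have h1 : Tendsto e (𝓝 (e.symm x)) (𝓝 x) := by
      have := (e.continuousAt (e.map_target hx.1)).tendsto
      rwa [e.right_inv hx.1] at this
    refine hne (e.symm x) hx.2 ?_
    filter_upwards [h1.eventually hcon, e.open_source.mem_nhds (e.map_target hx.1)] with z hz hzs
    simpa only [Function.comp_apply, e.left_inv hzs] using hz
  have hψc : ContinuousOn (ψ ∘ e.symm) O :=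
    hψ.comp (e.continuousOn_symm.mono inter_subset_left) fun x hx => hx.2
  obtain ⟨W, hW, hpW, hWO, u, hu, hu2⟩ := H338.exists_unit_of_norm_eq hOo hpO hG hG' hfr hψc
    (fun x hx => h _ hx.2)
  have hW' : IsOpen (e.source ∩ e ⁻¹' W) := e.isOpen_inter_preimage hW
  have hmem : p ∈ e.source ∩ e ⁻¹' W := ⟨hps, hpW⟩
  have hhol : MDifferentiableOn 𝓘(ℂ, Cm 2) 𝓘(ℂ) (u ∘ e) (e.source ∩ e ⁻¹' W) := by
    refine H757.mdifferentiableOn_of_chart he1 inter_subset_left (hu.congr_mono ?_ ?_)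
    · intro x hx
      simp only [Function.comp_apply, e.right_inv hx.1]
    · intro x hx
      have := hx.2.2
      rwa [mem_preimage, e.right_inv hx.1] at this
  refine ⟨u ∘ e, ⟨H815.holN_of_on hW' hhol hmem, (hu2 _ hpW).1⟩, ?_⟩
  filter_upwards [hW'.mem_nhds hmem] with z hz
  have := (hu2 _ hz.2).2
  simpa only [Function.comp_apply, e.left_inv hz.1] using this

/-- Two local representations of the same function differ by a unit. -/
theorem assoc_of_locRep [IsManifold 𝓘(ℂ, Cm 2) ω X] (h : LocRep (Cm 2) N U g φ)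
    (h' : LocRep (Cm 2) N U' g' φ') {p : X} (hp : p ∈ U) (hp' : p ∈ U') : Assoc g g' p := by
  have hV : IsOpen (U ∩ U') := h.isOpen.inter h'.isOpen
  refine assoc_of_norm_eq hV ⟨hp, hp'⟩ (h.hol.mono inter_subset_left)
    (h'.hol.mono inter_subset_right) (fun x hx => locRep_frequently h' hx.2)
    (ψ := fun x => (φ x - φ' x) / 2) ?_ ?_
  · exact ((h.smooth.continuousOn.mono inter_subset_left).sub
      (h'.smooth.continuousOn.mono inter_subset_right)).div_const 2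
  · intro x hx
    have e1 := h.eq x hx.1
    have e2 := h'.eq x hx.2
    rw [e1] at e2
    have e3 : ‖g x‖ ^ 2 = (‖g' x‖ * Real.exp ((φ x - φ' x) / 2)) ^ 2 := by
      rw [mul_pow, ← Real.exp_nat_mul]
      have e4 : ((2 : ℕ) : ℝ) * ((φ x - φ' x) / 2) = φ x + -φ' x := by push_cast; ring
      rw [e4, Real.exp_add, mul_comm (Real.exp (φ x)), ← mul_assoc, ← e2, mul_assoc,
        ← Real.exp_add]
      simp
    exact (pow_left_inj₀ (norm_nonneg _) (by positivity) two_ne_zero).1 e3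

/-- Local units glue. -/
theorem exists_unit_on [IsManifold 𝓘(ℂ, Cm 2) ω X] {V : Set X} (hV : IsOpen V)
    (hfr : ∀ y ∈ V, ∃ᶠ z in 𝓝 y, g' z ≠ 0) (h : ∀ y ∈ V, Assoc g g' y) :
    ∃ u : X → ℂ, MDifferentiableOn 𝓘(ℂ, Cm 2) 𝓘(ℂ) u V ∧ ∀ y ∈ V, u y ≠ 0 ∧ g y = u y * g' y := by
  have key : ∀ y : X, ∃ u : X → ℂ, y ∈ V → UnitN u y ∧ ∀ᶠ z in 𝓝 y, g z = u z * g' z := by
    intro y
    by_cases hy : y ∈ V
    · obtain ⟨u, hu⟩ := h y hy
      exact ⟨u, fun _ => hu⟩
    · exact ⟨fun _ => 1, fun h => absurd h hy⟩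
  choose u hu using key
  have hloc : ∀ z ∈ V, (fun y => u y y) =ᶠ[𝓝 z] u z := by
    intro z hz
    filter_upwards [hV.mem_nhds hz, (hu z hz).1.eventually,
      eventually_eventually_nhds.2 (hu z hz).2] with y hy hy1 hy2
    refine H815.eq_of_mul_eq (hu y hy).1.1.continuousAt hy1.1.continuousAt (hfr y hy) ?_
    filter_upwards [(hu y hy).2, hy2] with w hw hw'
    rw [← hw, ← hw']
  refine ⟨fun y => u y y, ?_, ?_⟩
  · intro z hz
    exact (((hu z hz).1.1.congr (hloc z hz)).self).mdifferentiableWithinAt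
  · intro y hy
    exact ⟨(hu y hy).1.2, (hu y hy).2.self_of_nhds⟩

/-- A real smooth function is smooth in every chart. -/
theorem contDiffAt_chart [IsManifold 𝓘(ℂ, Cm 2) ω X] (hU : IsOpen U)
    (hφ : ContMDiffOn 𝓘(ℝ, Cm 2) 𝓘(ℝ) ∞ φ U) {y : X} (hy : y ∈ U) {e : Chart 2 X} (he : At e y) :
    ContDiffAt ℝ ∞ (fun z => φ (e.symm z)) (e y) := by
  have := H757.isManifold_real (E := Cm 2) (M := X) ∞
  have h1 : ContMDiffOn 𝓘(ℝ, Cm 2) 𝓘(ℝ, Cm 2) ∞ e.symm e.target :=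
    contMDiffOn_symm_of_mem_maximalAtlas (IsManifold.subset_maximalAtlas he.1)
  have h2 : ContMDiffOn 𝓘(ℝ, Cm 2) 𝓘(ℝ) ∞ (φ ∘ e.symm) (e.target ∩ e.symm ⁻¹' U) :=
    hφ.comp (h1.mono inter_subset_left) (fun z hz => hz.2)
  have h3 := contMDiffOn_iff_contDiffOn.1 h2
  refine h3.contDiffAt ((e.isOpen_inter_preimage_symm hU).mem_nhds ⟨e.map_source he.2, ?_⟩)
  rw [mem_preimage, e.left_inv he.2]
  exact hy

/-- A function which is smooth in every chart is smooth. -/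
theorem contMDiffOn_of_charts [IsManifold 𝓘(ℂ, Cm 2) ω X] {h : X → ℝ}
    (hh : ∀ y ∈ U, ∀ e : Chart 2 X, At e y → ContDiffAt ℝ ∞ (fun z => h (e.symm z)) (e y)) :
    ContMDiffOn 𝓘(ℝ, Cm 2) 𝓘(ℝ) ∞ h U := by
  have := H757.isManifold_real (E := Cm 2) (M := X) ∞
  intro y hy
  set e := chartAt (Cm 2) y with he
  have hys : y ∈ e.source := mem_chart_source _ y
  have h1 := hh y hy e ⟨chart_mem_atlas _ y, hys⟩
  have h2 : ContMDiffAt 𝓘(ℝ, Cm 2) 𝓘(ℝ) ∞ (fun z => h (e.symm z)) (e y) :=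
    contMDiffAt_iff_contDiffAt.2 h1
  have h3 : ContMDiffAt 𝓘(ℝ, Cm 2) 𝓘(ℝ, Cm 2) ∞ e y :=
    contMDiffAt_of_mem_maximalAtlas (IsManifold.subset_maximalAtlas (chart_mem_atlas _ y)) hys
  have h4 : ContMDiffAt 𝓘(ℝ, Cm 2) 𝓘(ℝ) ∞ (fun x => h (e.symm (e x))) y :=
    ContMDiffAt.comp (I' := 𝓘(ℝ, Cm 2)) (g := fun z => h (e.symm z)) y h2 h3
  refine (h4.congr_of_eventuallyEq ?_).contMDiffWithinAt
  filter_upwards [e.open_source.mem_nhds hys] with x hx
  rw [e.left_inv hx]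

/-- The metric `h` on `𝒪(D)` has the norm function `N` of the canonical section. -/
structure Rep (D : EffDiv X) (h : X → X → ℝ) (N : X → ℝ) : Prop where
  metric : D.IsMetric h
  eq : ∀ x, ∀ y ∈ D.U x, ‖D.f x y‖ ^ 2 * h x y = N y

/-- the local representation -/
theorem Rep.locRep [IsManifold 𝓘(ℂ, Cm 2) ω X] {D : EffDiv X} {h : X → X → ℝ} {N : X → ℝ}
    (hr : Rep D h N) (x : X) :
    LocRep (Cm 2) N (D.U x) (D.f x) (fun y => -Real.log (h x y)) where
  isOpen := D.isOpen x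
  hol := D.holo x
  nz := by
    rintro V hV hVU ⟨y, hy⟩
    obtain ⟨z, hz, hzV⟩ := ((D.ne x y (hVU hy)).and_eventually (hV.mem_nhds hy)).exists
    exact ⟨z, hzV, hz⟩
  smooth := by
    refine contMDiffOn_of_charts fun y hy e he => ?_
    have h1 := hr.metric.smooth x y hy e he
    have h2 : h x (e.symm (e y)) ≠ 0 := by
      rw [e.left_inv he.2]
      exact (hr.metric.pos x y hy).ne'
    exact (h1.log h2).neg
  eq := fun y hy => by
    rw [neg_neg, Real.exp_log (hr.metric.pos x y hy), hr.eq x y hy]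

theorem Rep.isNormFn [IsManifold 𝓘(ℂ, Cm 2) ω X] {D : EffDiv X} {h : X → X → ℝ} {N : X → ℝ}
    (hr : Rep D h N) : IsNormFn (Cm 2) N :=
  fun p => ⟨D.U p, D.f p, _, D.mem p, hr.locRep p⟩

/-- every metric on `𝒪(D)` defines a norm function -/
theorem rep_of_metric {D : EffDiv X} {h : X → X → ℝ} (hm : D.IsMetric h) :
    Rep D h (fun x => ‖D.f x x‖ ^ 2 * h x x) :=
  ⟨hm, fun x y hy => hm.change x y y ⟨hy, D.mem y⟩⟩

theorem Rep.supp {D : EffDiv X} {h : X → X → ℝ} {N : X → ℝ} (hr : Rep D h N) :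
    D.supp = {x | N x = 0} := by
  ext x
  change D.f x x = 0 ↔ N x = 0
  rw [← hr.eq x x (D.mem x), mul_eq_zero]
  have := (hr.metric.pos x x (D.mem x)).ne'
  simp [this]

/-- **Norm functions are the squared norms of the canonical sections of effective divisors.** -/
theorem exists_rep [IsManifold 𝓘(ℂ, Cm 2) ω X] {N : X → ℝ} (hN : IsNormFn (Cm 2) N) :
    ∃ (D : EffDiv X) (h : X → X → ℝ), Rep D h N := by
  choose U g φ hxU hrep using hN
  refine ⟨⟨U, g, fun x => (hrep x).isOpen, hxU, fun x => (hrep x).hol,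
    fun x y hy => locRep_frequently (hrep x) hy, fun x x' => ?_⟩,
    fun x y => Real.exp (-φ x y), ⟨?_, ?_, ?_⟩, ?_⟩
  · exact exists_unit_on ((hrep x).isOpen.inter (hrep x').isOpen)
      (fun y hy => locRep_frequently (hrep x') hy.2)
      (fun y hy => assoc_of_locRep (hrep x) (hrep x') hy.1 hy.2)
  · intro x y hy e he
    exact (contDiffAt_chart (hrep x).isOpen (hrep x).smooth hy he).neg.exp
  · intro x y _
    exact Real.exp_pos _
  · intro x x' y hy
    rw [← (hrep x).eq y hy.1, ← (hrep x').eq y hy.2]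
  · intro x y hy
    exact ((hrep x).eq y hy).symm

/-- the divisor of a norm function is unique -/
theorem Rep.same [IsManifold 𝓘(ℂ, Cm 2) ω X] {D D' : EffDiv X} {h h' : X → X → ℝ} {N : X → ℝ}
    (hr : Rep D h N) (hr' : Rep D' h' N) : H815.Same D D' :=
  fun x => assoc_of_locRep (hr.locRep x) (hr'.locRep x) (D.mem x) (D'.mem x)

/-- products of norm functions are sums of divisors -/
theorem Rep.isSum [IsManifold 𝓘(ℂ, Cm 2) ω X] {D D₁ D₂ : EffDiv X} {h h₁ h₂ : X → X → ℝ}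
    {N N₁ N₂ : X → ℝ} (hr : Rep D h N) (hr₁ : Rep D₁ h₁ N₁) (hr₂ : Rep D₂ h₂ N₂)
    (hN : ∀ x, N x = N₁ x * N₂ x) : IsSum D D₁ D₂ := by
  intro x
  have h1 := (hr₁.locRep x).mul (hr₂.locRep x)
  have h2 := h1.congr (N' := N) (fun y _ => hN y)
  exact assoc_of_locRep (hr.locRep x) h2 (D.mem x) ⟨D₁.mem x, D₂.mem x⟩

omit [ChartedSpace (Cm 2) X] in
theorem eq_of_frequently {A B : X → ℝ} {y : X} (hA : ContinuousAt A y) (hB : ContinuousAt B y)
    (h : ∃ᶠ z in 𝓝 y, A z = B z) : A y = B y := by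
  by_contra hne
  have h1 := (hA.sub hB).eventually_ne (sub_ne_zero.2 hne)
  obtain ⟨z, hz, hz'⟩ := (h.and_eventually h1).exists
  exact hz' (sub_eq_zero.2 hz)

theorem metric_continuousAt [IsManifold 𝓘(ℂ, Cm 2) ω X] {D : EffDiv X} {h : X → X → ℝ}
    (hm : D.IsMetric h) {x y : X} (hy : y ∈ D.U x) : ContinuousAt (h x) y :=
  (contMDiffOn_of_charts (U := D.U x) (h := h x)
    (fun z hz e he => hm.smooth x z hz e he)).continuousOn.continuousAt
    ((D.isOpen x).mem_nhds hy)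

/-- Two norm functions with the same divisor differ by a positive smooth function. -/
theorem Rep.ratio [IsManifold 𝓘(ℂ, Cm 2) ω X] {D : EffDiv X} {h h' : X → X → ℝ} {N N' : X → ℝ}
    (hr : Rep D h N) (hr' : Rep D h' N') :
    ∃ ψ : X → ℝ, ContMDiff 𝓘(ℝ, Cm 2) 𝓘(ℝ) ∞ ψ ∧ (∀ x, N x = N' x * Real.exp (ψ x)) ∧
      ∀ x, ∀ y ∈ D.U x, ψ y = Real.log (h x y) - Real.log (h' x y) := by
  have key : ∀ x, ∀ y ∈ D.U x, Real.log (h y y) - Real.log (h' y y) =
      Real.log (h x y) - Real.log (h' x y) := by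
    intro x y hy
    have hyy := D.mem y
    have h1 : h x y * h' y y = h y y * h' x y := by
      refine eq_of_frequently (A := fun z => h x z * h' y z) (B := fun z => h y z * h' x z)
        ((metric_continuousAt hr.metric hy).mul (metric_continuousAt hr'.metric hyy))
        ((metric_continuousAt hr.metric hyy).mul (metric_continuousAt hr'.metric hy)) ?_
      have hev : ∀ᶠ z in 𝓝 y, z ∈ D.U x ∧ z ∈ D.U y := by
        filter_upwards [(D.isOpen x).mem_nhds hy, (D.isOpen y).mem_nhds hyy] with z h1 h2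
        exact ⟨h1, h2⟩
      refine ((D.ne x y hy).and_eventually hev).mono ?_
      rintro z ⟨hz, hzx, hzy⟩
      have hz' : D.f y z ≠ 0 := fun h0 => hz ((H815.zero_iff D hzx hzy).2 h0)
      have e1 := hr.eq x z hzx
      have e2 := hr.eq y z hzy
      have e3 := hr'.eq x z hzx
      have e4 := hr'.eq y z hzy
      have n1 : ‖D.f x z‖ ^ 2 ≠ 0 := pow_ne_zero 2 (norm_ne_zero_iff.2 hz)
      have n2 : ‖D.f y z‖ ^ 2 ≠ 0 := pow_ne_zero 2 (norm_ne_zero_iff.2 hz')
      have e5 : ‖D.f x z‖ ^ 2 * ‖D.f y z‖ ^ 2 * (h x z * h' y z) =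
          ‖D.f x z‖ ^ 2 * ‖D.f y z‖ ^ 2 * (h y z * h' x z) := by
        calc _ = (‖D.f x z‖ ^ 2 * h x z) * (‖D.f y z‖ ^ 2 * h' y z) := by ring
          _ = (‖D.f y z‖ ^ 2 * h y z) * (‖D.f x z‖ ^ 2 * h' x z) := by rw [e1, e2, e3, e4]
          _ = _ := by ring
      exact mul_left_cancel₀ (mul_ne_zero n1 n2) e5
    have p1 := (hr.metric.pos x y hy).ne'
    have p2 := (hr.metric.pos y y hyy).ne'
    have p3 := (hr'.metric.pos x y hy).ne'
    have p4 := (hr'.metric.pos y y hyy).ne'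
    have h2 := congrArg Real.log h1
    rw [Real.log_mul p1 p4, Real.log_mul p2 p3] at h2
    linarith
  refine ⟨fun y => Real.log (h y y) - Real.log (h' y y), ?_, fun x => ?_, key⟩
  · intro x
    have h1 : ContMDiffOn 𝓘(ℝ, Cm 2) 𝓘(ℝ) ∞ (fun y => Real.log (h x y) - Real.log (h' x y))
        (D.U x) := by
      have k1 := (hr.locRep x).smooth.neg
      have k2 := (hr'.locRep x).smooth.neg
      simp only [neg_neg] at k1 k2
      exact k1.sub k2
    have h2 := h1.contMDiffAt ((D.isOpen x).mem_nhds (D.mem x))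
    refine h2.congr_of_eventuallyEq ?_
    filter_upwards [(D.isOpen x).mem_nhds (D.mem x)] with y hy
    exact key x y hy
  · have p1 := hr.metric.pos x x (D.mem x)
    have p2 := hr'.metric.pos x x (D.mem x)
    rw [← hr.eq x x (D.mem x), ← hr'.eq x x (D.mem x), Real.exp_sub, Real.exp_log p1,
      Real.exp_log p2]
    field_simp

end Vale.Agent.P267.H62
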