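import Vale.Agent.P267.H62.FinCov
import Vale.Agent.P267.H209.Contr
import Vale.Agent.P267.H209.Reach
import Vale.Agent.P267.H739.Geo
import Vale.Agent.P267.H331.FLGlue

/-!
# P267, endgame: the last assembly of ROUTE S

`hasGSS_of_phiOut`: the geometric input `Geo` and the output `PhiOut` of helper739 for the classes
`l` and `l + 1` of a `Chain` give a global spherical shell in `X`.
-/

open Set Filter Metric Topology
open scoped Manifold ContDiff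
open Vale.Agent.P272.K (Cm)
open Vale.Agent.P267.FL Vale.Agent.P267.H158 Vale.Agent.P267.XT Vale.Agent.P267.H338
open Vale.Agent.P267.LineX Vale.Agent.P267.H757

set_option linter.unusedSectionVars false

noncomputable section

namespace Vale.Agent.P267.H62

variable {X : Type} [TopologicalSpace X] [ChartedSpace C2 X] [IsManifold 𝓘(ℂ, C2) ω X] {n : ℕ}
  {O : BlockOut X n} (Ch : Chain O)

/-! ### comparison of the sections of the classes of a chain -/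

/-- the norm of the section of the class `l` -/
def al (l : ℤ) (x : Cov O.B.hh) : ℝ := ‖O.bα (Ch.ord.symm l) x‖

theorem al_nonneg (l : ℤ) (x : Cov O.B.hh) : 0 ≤ al Ch l x := norm_nonneg _

theorem N_eq_al (l : ℤ) (x : Cov O.B.hh) : O.N (Ch.ord.symm l) x = al Ch l x ^ 2 := rfl

theorem ord_symm_add (l : ℤ) :
    Ch.ord.symm (l + n) = ((Ch.ord.symm l).1, (Ch.ord.symm l).2 + 1) := by
  rw [Equiv.symm_apply_eq, Ch.ord_shift]
  simp

theorem bα_succ (b : Fin n × ℤ) (x : Cov O.B.hh) :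
    O.bα (b.1, b.2 + 1) x = O.bα b (O.B.D.sh (-1) x) := by
  unfold BlockOut.bα
  simp only
  rw [← O.B.D.sh_add]
  congr 2
  ring

theorem al_shift (l : ℤ) (x : Cov O.B.hh) : al Ch (l + n) x = al Ch l (O.B.D.sh (-1) x) := by
  unfold al
  rw [ord_symm_add]
  exact congrArg norm (bα_succ (Ch.ord.symm l) x)

theorem al_bdd (l : ℤ) : ∃ C : ℝ, 0 < C ∧ ∀ x, al Ch l x ≤ C := by
  obtain ⟨C, hC⟩ := (O.cone (Ch.ord.symm l).1).α_bdd
  refine ⟨max C 1, by positivity, fun x => (hC _).trans (le_max_left _ _)⟩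

theorem al_continuous (l : ℤ) : Continuous (al Ch l) := by
  have h1 := (O.cone (Ch.ord.symm l).1).α_reg.continuous
  have h2 : Continuous (O.B.D.sh (-(Ch.ord.symm l).2)) := (O.B.D.γ ^ (-(Ch.ord.symm l).2)).continuous
  exact (h1.comp h2).norm

/-- one step: `D_{l+1} ≥ D_l` -/
theorem exists_step (l : ℤ) : ∃ B : Cov O.B.hh → ℝ, Continuous B ∧ (∀ x, 0 ≤ B x) ∧
    (∀ x, al Ch (l + 1) x ^ 2 = al Ch l x ^ 2 * B x) ∧
    ∃ K : ℝ, 0 ≤ K ∧ ∀ x, O.B.D.f x ≤ -K → B x ≤ K := by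
  classical
  have hs : (1 : ℤ) ≤ Ch.s (l + 1) := by exact_mod_cast Ch.s_pos (l + 1)
  have hl : l ∈ Finset.Ico (l + 1 - (Ch.s (l + 1) : ℤ)) (l + 1) := by
    rw [Finset.mem_Ico]; constructor <;> linarith
  have hnn : ∀ x, 0 ≤ Ch.Nc (l + 1) x := fun x => (Ch.Nc_norm (l + 1)).nonneg x
  refine ⟨fun x => Ch.Nc (l + 1) x * ∏ j ∈ (Finset.Ico (l + 1 - (Ch.s (l + 1) : ℤ)) (l + 1)).erase l,
    al Ch j x ^ 2, ?_, ?_, ?_, ?_⟩
  · refine (Ch.Nc_norm (l + 1)).continuous.mul ?_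
    exact continuous_finsetProd _ fun j _ => (al_continuous Ch j).pow 2
  · intro x
    exact mul_nonneg (hnn x) (Finset.prod_nonneg fun j _ => sq_nonneg _)
  · intro x
    have h1 := Ch.div (l + 1) x
    rw [N_eq_al] at h1
    rw [h1, ← Finset.mul_prod_erase _ _ hl]
    simp only [N_eq_al]
    ring
  · obtain ⟨K, hK, hKb⟩ := Ch.Nc_in (l + 1)
    choose C hC hCb using al_bdd Ch
    have h0 : 0 ≤ ∏ j ∈ (Finset.Ico (l + 1 - (Ch.s (l + 1) : ℤ)) (l + 1)).erase l, C j ^ 2 :=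
      Finset.prod_nonneg fun j _ => sq_nonneg _
    refine ⟨max K (K * ∏ j ∈ (Finset.Ico (l + 1 - (Ch.s (l + 1) : ℤ)) (l + 1)).erase l, C j ^ 2),
      le_max_of_le_left hK.le, fun x hx => ?_⟩
    refine le_trans ?_ (le_max_right _ _)
    have h2 := (hKb x (hx.trans (neg_le_neg (le_max_left _ _)))).2
    refine mul_le_mul h2 ?_ (Finset.prod_nonneg fun j _ => sq_nonneg _) hK.le
    exact Finset.prod_le_prod (fun j _ => sq_nonneg _) fun j _ =>
      pow_le_pow_left₀ (al_nonneg Ch j x) (hCb j x) 2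

/-- `D_{l+m} ≥ D_l` -/
theorem exists_mono (l : ℤ) (m : ℕ) : ∃ B : Cov O.B.hh → ℝ, Continuous B ∧ (∀ x, 0 ≤ B x) ∧
    (∀ x, al Ch (l + m) x ^ 2 = al Ch l x ^ 2 * B x) ∧
    ∃ K : ℝ, 0 ≤ K ∧ ∀ x, O.B.D.f x ≤ -K → B x ≤ K := by
  induction m with
  | zero => exact ⟨fun _ => 1, continuous_const, fun _ => zero_le_one, fun x => by simp, 1,
      zero_le_one, fun _ _ => le_rfl⟩
  | succ m ih =>
    obtain ⟨B, hB1, hB2, hB3, K, hK0, hK⟩ := ih
    obtain ⟨B', hB1', hB2', hB3', K', hK0', hK'⟩ := exists_step Ch (l + m)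
    refine ⟨fun x => B x * B' x, hB1.mul hB1', fun x => mul_nonneg (hB2 x) (hB2' x), fun x => ?_,
      max (max K K') (K * K'), by positivity, fun x hx => ?_⟩
    · have h1 : l + ((m + 1 : ℕ) : ℤ) = l + m + 1 := by push_cast; ring
      rw [h1, hB3', hB3, mul_assoc]
    · refine le_trans ?_ (le_max_right _ _)
      have h1 := hK x (hx.trans (neg_le_neg ((le_max_left _ _).trans (le_max_left _ _))))
      have h2 := hK' x (hx.trans (neg_le_neg ((le_max_right _ _).trans (le_max_left _ _))))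
      exact mul_le_mul h1 h2 (hB2' x) hK0

theorem le_of_sq_eq {a b B C : ℝ} (ha : 0 ≤ a) (hb : 0 ≤ b) (h : a ^ 2 = b ^ 2 * B) (hB : B ≤ C) :
    a ≤ Real.sqrt C * b := by
  have h1 : a ^ 2 ≤ C * b ^ 2 := by
    rw [h, mul_comm]
    exact mul_le_mul_of_nonneg_right hB (sq_nonneg _)
  rcases le_or_gt 0 C with hC | hC
  · refine abs_le_of_sq_le_sq' ?_ (by positivity) |>.2
    rw [mul_pow, Real.sq_sqrt hC]
    exact h1
  · have h2 : a ^ 2 ≤ 0 := h1.trans (mul_nonpos_of_nonpos_of_nonneg hC.le (sq_nonneg _))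
    have h3 : a = 0 := by nlinarith [sq_nonneg a]
    rw [h3]
    positivity

/-- local comparison -/
theorem al_le_loc (l : ℤ) (m : ℕ) (p : Cov O.B.hh) :
    ∃ C : ℝ, 0 ≤ C ∧ ∀ᶠ q in 𝓝 p, al Ch (l + m) q ≤ C * al Ch l q := by
  obtain ⟨B, hB1, hB2, hB3, -⟩ := exists_mono Ch l m
  refine ⟨Real.sqrt (B p + 1), Real.sqrt_nonneg _, ?_⟩
  have h1 : ∀ᶠ q in 𝓝 p, B q < B p + 1 := hB1.continuousAt.eventually_lt_const (by linarith)
  filter_upwards [h1] with q hq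
  exact le_of_sq_eq (al_nonneg Ch _ q) (al_nonneg Ch _ q) (hB3 q) hq.le

/-- comparison at the inner end -/
theorem al_le_in (l : ℤ) (m : ℕ) :
    ∃ C R : ℝ, 0 ≤ C ∧ ∀ q, O.B.D.f q ≤ R → al Ch (l + m) q ≤ C * al Ch l q := by
  obtain ⟨B, hB1, hB2, hB3, K, -, hK⟩ := exists_mono Ch l m
  exact ⟨Real.sqrt K, -K, Real.sqrt_nonneg _, fun q hq =>
    le_of_sq_eq (al_nonneg Ch _ q) (al_nonneg Ch _ q) (hB3 q) (hK q hq)⟩

/-- decay at the inner end -/
theorem al_in (l : ℤ) : ∃ C R : ℝ, 0 ≤ C ∧ ∀ q, O.B.D.f q ≤ R →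
    al Ch l q ≤ C * Real.exp (O.d₀ / 2 * O.B.D.f q) := by
  obtain ⟨C, hC⟩ := (O.cone (Ch.ord.symm l).1).α_in
  set k := (Ch.ord.symm l).2 with hk
  refine ⟨|C| * Real.exp (-(O.d₀ / 2 * k)), k, by positivity, fun q hq => ?_⟩
  have h1 : O.B.D.f (O.B.D.sh (-k) q) = O.B.D.f q - k := by
    rw [O.B.D.f_sh]; push_cast; ring
  have h2 := hC (O.B.D.sh (-k) q) (by rw [h1]; linarith)
  rw [h1] at h2
  have h3 : al Ch l q = ‖O.α (Ch.ord.symm l).1 (O.B.D.sh (-k) q)‖ := rfl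
  rw [h3]
  refine h2.trans ?_
  rw [mul_assoc, ← Real.exp_add]
  have h4 : -(O.d₀ / 2 * (k : ℝ)) + O.d₀ / 2 * O.B.D.f q = O.d₀ / 2 * (O.B.D.f q - k) := by ring
  rw [h4]
  exact mul_le_mul_of_nonneg_right (le_abs_self C) (Real.exp_nonneg _)

/-- the section of the class `l` is not locally zero -/
theorem al_frequently (l : ℤ) (p : Cov O.B.hh) : ∃ᶠ q in 𝓝 p, al Ch l q ≠ 0 := by
  set k := (Ch.ord.symm l).2 with hk
  have h1 : Dense {x | O.α (Ch.ord.symm l).1 x ≠ 0} := (O.cone (Ch.ord.symm l).1).α_dense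
  have h2 : Dense ((O.B.D.γ ^ (-k)) ⁻¹' {x | O.α (Ch.ord.symm l).1 x ≠ 0}) :=
    h1.preimage (O.B.D.γ ^ (-k)).isOpenMap
  have h3 := mem_closure_iff_frequently.1 (h2 p)
  refine h3.mono fun q hq => ?_
  have hq' : O.α (Ch.ord.symm l).1 (O.B.D.sh (-k) q) ≠ 0 := hq
  exact norm_ne_zero_iff.2 hq'

/-! ### the assembly -/

/-- **ROUTE S, the last assembly.** -/
theorem hasGSS_of_phiOut [T2Space X] [ConnectedSpace X] {l : ℤ} {φ : EmbP1 (Cov O.B.hh)}
    {W : Set (Cov O.B.hh)} {lam : Cov O.B.hh → EuclideanSpace ℂ (O.E (Ch.ord.symm (l + 1)).1).ι}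
    {x T : Cov O.B.hh → ℂ} {N₀ : Set (Cov O.B.hh)} {s d : ℝ}
    (G : H739.Geo O.B.D (O.bL (Ch.ord.symm (l + 1))) (O.ba (Ch.ord.symm (l + 1)))
      (O.bα (Ch.ord.symm (l + 1))) (O.bα (Ch.ord.symm l)) φ W lam x)
    (P : H739.PhiOut O.B.D (O.bα (Ch.ord.symm l)) φ x T N₀ s d) (hd : d ≤ O.d₀ / 2) :
    HasGSS X := by
  have : LocallyConnectedSpace X := ChartedSpace.locallyConnectedSpace C2 X
  have hcon : ConnectedSpace (Cov O.B.hh) := Cov.connectedSpace O.B.prim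
  set D := O.B.D with hD
  set g : Cov O.B.hh → Cov O.B.hh := D.sh (-1) with hg
  have hgc : Continuous g := (D.γ ^ (-1 : ℤ)).continuous
  have hfg : ∀ p, D.f (g p) = D.f p - 1 := fun p => by rw [hg, D.f_sh]; push_cast; ring
  have hd0 : 0 < O.d₀ := O.leaves.pos
  have hn : 0 < n := Ch.n_pos
  set Y : Set (Cov O.B.hh) := ⋃ j ∈ Iic l, (Ch.C j).image with hY
  have hYα : ∀ y, y ∈ Y ↔ O.bα (Ch.ord.symm l) y = 0 := by
    intro y
    rw [hY, ← Ch.zero_eq l]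
    change ‖O.bα (Ch.ord.symm l) y‖ ^ 2 = 0 ↔ _
    rw [sq_eq_zero_iff, norm_eq_zero]
  have hYeq : ∀ y ∈ N₀, x y = 0 → T y = 0 → y ∈ Y := by
    intro y hy hx hT
    rw [hYα]
    rcases P.fibre y hy hx (by rw [hT, norm_zero]; exact P.s_pos) with h | ⟨t, ht, rfl⟩
    · exact h
    · have h1 := (P.curve t ht).2.2
      rw [hT] at h1
      rw [← h1]
      exact G.base
  have hY0 : ∀ y ∈ Y, y ∈ N₀ ∧ x y = 0 ∧ T y = 0 := by
    intro y hy
    have h0 := (hYα y).1 hy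
    have h1 := P.Y_sub y h0
    obtain ⟨K, hK⟩ := P.loc y h1
    have h2 := hK.self_of_nhds
    rw [h0, norm_zero, mul_zero] at h2
    exact ⟨h1, norm_le_zero_iff.1 h2.1, norm_le_zero_iff.1 h2.2⟩
  have hYW : Y ⊆ W := fun y hy => G.Y_sub y ((hYα y).1 hy)
  have hgY : ∀ y ∈ Y, g y ∈ Y := fun y hy => Ch.shift_subset l hy
  -- bounds of the frame
  have hlam : ∀ p ∈ W, ∃ C : ℝ, 0 < C ∧ ∀ᶠ y in 𝓝 p, 1 ≤ C * ‖lam y‖ ∧ ‖lam y‖ ≤ C := by
    intro p hp
    have h1 := (G.frame p hp).self_of_nhds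
    have h2 : ContinuousAt lam p := h1.1.continuousAt
    have h3 : 0 < ‖lam p‖ := norm_pos_iff.2 h1.2.2.1
    refine ⟨‖lam p‖ + 1 + 2 / ‖lam p‖, by positivity, ?_⟩
    filter_upwards [h2.norm.eventually_const_lt (show ‖lam p‖ / 2 < ‖lam p‖ by linarith),
      h2.norm.eventually_lt_const (show ‖lam p‖ < ‖lam p‖ + 1 by linarith)] with y hy1 hy2
    have h4 : 0 < 2 / ‖lam p‖ := by positivity
    constructor
    · have h5 : (1 : ℝ) = 2 / ‖lam p‖ * (‖lam p‖ / 2) := by field_simp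
      calc (1 : ℝ) = 2 / ‖lam p‖ * (‖lam p‖ / 2) := h5
        _ ≤ 2 / ‖lam p‖ * ‖lam y‖ := mul_le_mul_of_nonneg_left hy1.le h4.le
        _ ≤ (‖lam p‖ + 1 + 2 / ‖lam p‖) * ‖lam y‖ :=
          mul_le_mul_of_nonneg_right (by linarith) (norm_nonneg _)
    · linarith
  have hfac : ∀ p ∈ W, al Ch (l + 1) p = ‖x p‖ * ‖lam p‖ := by
    intro p hp
    unfold al
    rw [G.fac p hp, norm_smul]
  have hne : ∀ p ∈ W, ∃ᶠ q in 𝓝 p, x q ≠ 0 := by
    intro p hp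
    refine ((al_frequently Ch (l + 1) p).and_eventually (G.open_W.mem_nhds hp)).mono ?_
    rintro q ⟨h1, h2⟩ h3
    rw [hfac q h2, h3, norm_zero, zero_mul] at h1
    exact h1 rfl
  -- the neighbourhood
  set U : Set (Cov O.B.hh) := {p | (p ∈ N₀ ∧ p ∈ W) ∧ g p ∈ N₀ ∧ g p ∈ W} with hU
  have hUo : IsOpen U :=
    (P.open_N.inter G.open_W).inter ((P.open_N.inter G.open_W).preimage hgc)
  have hYU : Y ⊆ U := fun y hy =>
    ⟨⟨(hY0 y hy).1, hYW hy⟩, (hY0 _ (hgY y hy)).1, hYW (hgY y hy)⟩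
  obtain ⟨r1, K1, hin1⟩ := P.inn
  obtain ⟨r2, K2, hin2⟩ := G.inn
  obtain ⟨C3, r3, hC3, hin3⟩ := al_le_in Ch (l + 1) n
  obtain ⟨C4, r4, hC4, hin4⟩ := al_le_in Ch (l + 1) (n - 1)
  obtain ⟨C5, r5, hC5, hin5⟩ := al_in Ch l
  have hln : l + 1 + ((n - 1 : ℕ) : ℤ) = l + n := by
    have : ((n - 1 : ℕ) : ℤ) = (n : ℤ) - 1 := by omega
    rw [this]; ring
  set R : ℝ := min (min (min r1 r2) (min r3 r4)) (min r5 0) with hR
  have hR1 : R ≤ r1 := (min_le_left _ _).trans ((min_le_left _ _).trans (min_le_left _ _))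
  have hR2 : R ≤ r2 := (min_le_left _ _).trans ((min_le_left _ _).trans (min_le_right _ _))
  have hR3 : R ≤ r3 := (min_le_left _ _).trans ((min_le_right _ _).trans (min_le_left _ _))
  have hR4 : R ≤ r4 := (min_le_left _ _).trans ((min_le_right _ _).trans (min_le_right _ _))
  have hR5 : R ≤ r5 := (min_le_right _ _).trans (min_le_left _ _)
  have hR0 : R ≤ 0 := (min_le_right _ _).trans (min_le_right _ _)
  have hend : ∀ p, D.f p ≤ R → p ∈ U := by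
    intro p hp
    have h1 : D.f (g p) ≤ R := by rw [hfg]; linarith
    exact ⟨⟨(hin1 p (hp.trans hR1)).1, (hin2 p (hp.trans hR2)).1⟩,
      (hin1 _ (h1.trans hR1)).1, (hin2 _ (h1.trans hR2)).1⟩
  have hb1 : ∀ p ∈ U, ∃ C : ℝ, ∀ᶠ q in 𝓝 p, ‖x (g q)‖ ≤ C * ‖x q‖ := by
    intro p hp
    obtain ⟨Ca, hCa, hla⟩ := hlam p hp.1.2
    obtain ⟨Cb, hCb, hlb⟩ := hlam (g p) hp.2.2
    obtain ⟨Cc, hCc, hlc⟩ := al_le_loc Ch (l + 1) n p
    refine ⟨Cb * (Cc * Ca), ?_⟩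
    filter_upwards [hla, hgc.continuousAt.eventually hlb, hlc, hUo.mem_nhds hp] with q h1 h2 h3 hq
    have h4 : ‖x (g q)‖ ≤ Cb * al Ch (l + 1) (g q) := by
      rw [hfac _ hq.2.2]
      have := norm_nonneg (x (g q))
      nlinarith [h2.1]
    have h5 : al Ch (l + 1) (g q) = al Ch (l + 1 + n) q := (al_shift Ch (l + 1) q).symm
    have h6 : al Ch (l + 1) q ≤ Ca * ‖x q‖ := by
      rw [hfac _ hq.1.2, mul_comm]
      exact mul_le_mul_of_nonneg_right h1.2 (norm_nonneg _)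
    calc ‖x (g q)‖ ≤ Cb * al Ch (l + 1) (g q) := h4
      _ = Cb * al Ch (l + 1 + n) q := by rw [h5]
      _ ≤ Cb * (Cc * al Ch (l + 1) q) := mul_le_mul_of_nonneg_left h3 hCb.le
      _ ≤ Cb * (Cc * (Ca * ‖x q‖)) :=
        mul_le_mul_of_nonneg_left (mul_le_mul_of_nonneg_left h6 hCc) hCb.le
      _ = Cb * (Cc * Ca) * ‖x q‖ := by ring
  have hb2 : ∀ p ∈ U, ∃ C : ℝ, ∀ᶠ q in 𝓝 p, ‖T (g q)‖ ≤ C * ‖x q‖ := by
    intro p hp
    obtain ⟨Ca, hCa, hla⟩ := hlam p hp.1.2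
    obtain ⟨Cb, hlb⟩ := P.loc (g p) hp.2.1
    obtain ⟨Cc, hCc, hlc⟩ := al_le_loc Ch (l + 1) (n - 1) p
    refine ⟨|Cb| * (Cc * Ca), ?_⟩
    filter_upwards [hla, hgc.continuousAt.eventually hlb, hlc, hUo.mem_nhds hp] with q h1 h2 h3 hq
    rw [hln] at h3
    have h4 : ‖T (g q)‖ ≤ |Cb| * al Ch l (g q) :=
      h2.2.trans (mul_le_mul_of_nonneg_right (le_abs_self _) (norm_nonneg _))
    have h5 : al Ch l (g q) = al Ch (l + n) q := (al_shift Ch l q).symm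
    have h6 : al Ch (l + 1) q ≤ Ca * ‖x q‖ := by
      rw [hfac _ hq.1.2, mul_comm]
      exact mul_le_mul_of_nonneg_right h1.2 (norm_nonneg _)
    calc ‖T (g q)‖ ≤ |Cb| * al Ch l (g q) := h4
      _ = |Cb| * al Ch (l + n) q := by rw [h5]
      _ ≤ |Cb| * (Cc * al Ch (l + 1) q) := mul_le_mul_of_nonneg_left h3 (abs_nonneg _)
      _ ≤ |Cb| * (Cc * (Ca * ‖x q‖)) :=
        mul_le_mul_of_nonneg_left (mul_le_mul_of_nonneg_left h6 hCc) (abs_nonneg _)
      _ = |Cb| * (Cc * Ca) * ‖x q‖ := by ring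
  have hK2 : ∀ p, D.f p ≤ R → al Ch (l + 1) p ≤ |K2| * ‖x p‖ := by
    intro p hp
    have h1 := hin2 p (hp.trans hR2)
    rw [hfac p h1.1, mul_comm]
    exact mul_le_mul_of_nonneg_right (h1.2.2.2.trans (le_abs_self _)) (norm_nonneg _)
  have he1 : ∃ C, ∀ p, D.f p ≤ R → ‖x (g p)‖ ≤ C * Real.exp (-(O.d₀ / 2 * D.f p)) * ‖x p‖ := by
    refine ⟨|K2| * (C3 * |K2|), fun p hp => ?_⟩
    have hp' : D.f (g p) ≤ R := by rw [hfg]; linarith
    have h1 := hin2 (g p) (hp'.trans hR2)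
    have h2 : ‖x (g p)‖ ≤ |K2| * al Ch (l + 1) (g p) := by
      rw [hfac _ h1.1]
      have h3 : 1 ≤ |K2| * ‖lam (g p)‖ :=
        h1.2.2.1.trans (mul_le_mul_of_nonneg_right (le_abs_self _) (norm_nonneg _))
      have := norm_nonneg (x (g p))
      nlinarith
    have h5 : al Ch (l + 1) (g p) = al Ch (l + 1 + n) p := (al_shift Ch (l + 1) p).symm
    have h6 := hin3 p (hp.trans hR3)
    have h7 := hK2 p hp
    have h8 : 1 ≤ Real.exp (-(O.d₀ / 2 * D.f p)) := by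
      apply Real.one_le_exp
      have : D.f p ≤ 0 := hp.trans hR0
      nlinarith
    calc ‖x (g p)‖ ≤ |K2| * al Ch (l + 1) (g p) := h2
      _ = |K2| * al Ch (l + 1 + n) p := by rw [h5]
      _ ≤ |K2| * (C3 * al Ch (l + 1) p) := mul_le_mul_of_nonneg_left h6 (abs_nonneg _)
      _ ≤ |K2| * (C3 * (|K2| * ‖x p‖)) :=
        mul_le_mul_of_nonneg_left (mul_le_mul_of_nonneg_left h7 hC3) (abs_nonneg _)
      _ = |K2| * (C3 * |K2|) * 1 * ‖x p‖ := by ring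
      _ ≤ |K2| * (C3 * |K2|) * Real.exp (-(O.d₀ / 2 * D.f p)) * ‖x p‖ := by gcongr
  have he2 : ∃ C, ∀ p, D.f p ≤ R → ‖T (g p)‖ ≤ C * Real.exp (-(O.d₀ / 2 * D.f p)) * ‖x p‖ := by
    refine ⟨|K1| * (C4 * |K2|) * Real.exp d, fun p hp => ?_⟩
    have hp' : D.f (g p) ≤ R := by rw [hfg]; linarith
    have h1 := (hin1 (g p) (hp'.trans hR1)).2.2
    have h5 : al Ch l (g p) = al Ch (l + n) p := (al_shift Ch l p).symm
    have h6 := hin4 p (hp.trans hR4)
    rw [hln] at h6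
    have h7 := hK2 p hp
    have h8 : Real.exp (-d * D.f (g p)) ≤ Real.exp d * Real.exp (-(O.d₀ / 2 * D.f p)) := by
      rw [← Real.exp_add]
      apply Real.exp_le_exp.2
      rw [hfg]
      have : D.f p ≤ 0 := hp.trans hR0
      nlinarith
    calc ‖T (g p)‖ ≤ K1 * al Ch l (g p) * Real.exp (-d * D.f (g p)) := h1
      _ ≤ |K1| * al Ch l (g p) * (Real.exp d * Real.exp (-(O.d₀ / 2 * D.f p))) := by
        refine mul_le_mul (mul_le_mul_of_nonneg_right (le_abs_self _) (norm_nonneg _)) h8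
          (Real.exp_nonneg _) (mul_nonneg (abs_nonneg _) (norm_nonneg _))
      _ = |K1| * al Ch (l + n) p * (Real.exp d * Real.exp (-(O.d₀ / 2 * D.f p))) := by rw [h5]
      _ ≤ |K1| * (C4 * (|K2| * ‖x p‖)) * (Real.exp d * Real.exp (-(O.d₀ / 2 * D.f p))) := by
        refine mul_le_mul_of_nonneg_right (mul_le_mul_of_nonneg_left (h6.trans
          (mul_le_mul_of_nonneg_left h7 hC4)) (abs_nonneg _)) (by positivity)
      _ = |K1| * (C4 * |K2|) * Real.exp d * Real.exp (-(O.d₀ / 2 * D.f p)) * ‖x p‖ := by ring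
  have hxe : ∃ C δ, 0 < δ ∧ ∀ p, D.f p ≤ R → ‖x p‖ ≤ C * Real.exp (δ * D.f p) := by
    refine ⟨|K1| * C5, O.d₀ / 2, by linarith, fun p hp => ?_⟩
    have h1 := (hin1 p (hp.trans hR1)).2.1
    have h2 := hin5 p (hp.trans hR5)
    calc ‖x p‖ ≤ K1 * al Ch l p := h1
      _ ≤ |K1| * al Ch l p := mul_le_mul_of_nonneg_right (le_abs_self _) (norm_nonneg _)
      _ ≤ |K1| * (C5 * Real.exp (O.d₀ / 2 * D.f p)) := mul_le_mul_of_nonneg_left h2 (abs_nonneg _)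
      _ = |K1| * C5 * Real.exp (O.d₀ / 2 * D.f p) := by ring
  have hroot : D.RootGap (O.d₀ / 2) := (O.full (Ch.ord.symm l).1).root
  have hT1 : H706.T1s D (O.d₀ / 4) := O.t1o (O.d₀ / 2) hroot (O.d₀ / 4) (by linarith) (by linarith)
  obtain ⟨Λ, c, hΛ, hc0, hc1, N', hN'U, hN'o, hYN', hN'in, hcontr⟩ :=
    H209.contraction' D hroot (by linarith : 0 < O.d₀ / 4) (by linarith) hT1 P.open_N hUo
      (fun p hp => hp.1.1) (fun p hp => hp.2.1) hYU (fun i : Iic l => Ch.C (i : ℤ))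
      (Ch.union_eq l) (Ch.reach' l) hend
      (fun p hp => (H331.HolAt.mdiff (P.x_hol p hp)).mdifferentiableWithinAt)
      (fun p hp => (H331.HolAt.mdiff (P.T_hol p hp)).mdifferentiableWithinAt)
      (fun p hp => hne p hp.1.2) hb1 hb2 he1 he2 hxe
  refine hasGSS_of_finXT O.B
    { N := N₀
      isOpen := P.open_N
      x := x
      T := T
      x_md := fun p hp => H331.HolAt.mdiff (P.x_hol p hp)
      T_md := fun p hp => H331.HolAt.mdiff (P.T_hol p hp)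
      r := s
      r_pos := P.s_pos
      closed := fun s' _ h => P.closed s' h
      out := P.out
      inn := ?_
      ends := ?_
      thin := fun y hy h1 h2 => hne y (hYW (hYeq y hy h1 h2))
      zero_mem := fun y hy h1 h2 => (hY0 _ (hgY y (hYeq y hy h1 h2))).1
      disc := ?_
      Λ := Λ
      Λ_pos := hΛ
      c := c
      c_nonneg := hc0
      c_lt := hc1
      N' := N'
      isOpen' := hN'o
      zero_mem' := fun y hy h1 h2 => hYN' (hYeq y hy h1 h2)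
      inn' := hN'in
      con := fun p _ hp' _ => hcontr p hp' }
  · intro ε hε
    obtain ⟨r, hr⟩ := P.tend ε hε
    exact ⟨min r r1, fun p hp => ⟨(hin1 p (hp.trans (min_le_right _ _))).1,
      hr p (hp.trans (min_le_left _ _))⟩⟩
  · intro y hy h1 h2 R'
    obtain ⟨C, hCY, hC, hyC, z, hz, hzR⟩ := Ch.reach' l y (hYeq y hy h1 h2) R'
    exact ⟨C, hC, hyC, fun w hw => hY0 w (hCY hw), z, hz, hzR⟩
  · refine ⟨φ.f₀, ?_, ?_, ?_, ?_, ?_⟩
    · exact (P.curve 0 (by simpa using P.s_pos)).1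
    · exact (P.curve 0 (by simpa using P.s_pos)).2.1
    · exact (P.curve 0 (by simpa using P.s_pos)).2.2
    · exact (φ.holo₀ 0).continuousAt
    · have h1 : ∀ᶠ t : ℂ in 𝓝[≠] 0, ‖t‖ < s := by
        have : ∀ᶠ t : ℂ in 𝓝 0, ‖t‖ < s := by
          have := ball_mem_nhds (0 : ℂ) P.s_pos
          filter_upwards [this] with t ht
          simpa using ht
        exact this.filter_mono nhdsWithin_le_nhds
      filter_upwards [h1, self_mem_nhdsWithin] with t ht ht0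
      have ht0' : t ≠ 0 := ht0
      obtain ⟨h2, h3, h4⟩ := P.curve t ht
      refine ⟨P.imm t (norm_pos_iff.2 ht0') ht, h3, h4, fun p hp hxp hTp => ?_⟩
      rcases P.fibre p hp hxp (by rw [hTp]; exact ht) with h | ⟨t', ht', rfl⟩
      · exfalso
        have h5 := (hY0 p ((hYα p).2 h)).2.2
        rw [hTp] at h5
        exact ht0' h5
      · have h5 := (P.curve t' ht').2.2
        rw [hTp] at h5
        rw [h5]

end Vale.Agent.P267.H62
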